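import Vale.Agent.P365.CU.Law

/-!
# N365: the finite volume criterion is open in the energy
-/

namespace Vale.Agent.N365

open MeasureTheory Complex Matrix Filter Topology P365L P365L.Comp P365X
open scoped ENNReal

variable {ι : Type} [Fintype ι] [DecidableEq ι] {A : Matrix ι ι ℝ} {ν : Measure ℝ} {s : ℝ}
  {C : ℝ≥0∞}

theorem Gr_shift (hA : A.IsSymm) {ζ ζ' : ℂ} (hζ : 0 < ζ.im) (hζ' : 0 < ζ'.im) (v : ι → ℝ)
    (a b : ι) : Gr A (Wv ζ' v) a b = Gr A (Wv ζ v) a b +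
      ∑ u, (ζ' - ζ) * (Gr A (Wv ζ' v) a u * Gr A (Wv ζ v) u b) := by
  have h1 : Gr A (Wv ζ' v) * Kmat A (Wv ζ' v) = 1 :=
    Matrix.nonsing_inv_mul _ (isUnit_iff_ne_zero.2 (det_ne_zero hA (Wv_neg hζ' v)))
  have h2 : Kmat A (Wv ζ v) * Gr A (Wv ζ v) = 1 :=
    Matrix.mul_nonsing_inv _ (isUnit_iff_ne_zero.2 (det_ne_zero hA (Wv_neg hζ v)))
  have h3 : Kmat A (Wv ζ v) = Kmat A (Wv ζ' v) + (ζ' - ζ) • (1 : Matrix ι ι ℂ) := by
    ext x y
    by_cases h : x = y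
    · subst h
      simp [Kmat, Wv]
      ring
    · simp [Kmat, h]
  have h4 : Gr A (Wv ζ' v) = Gr A (Wv ζ v) + (ζ' - ζ) • (Gr A (Wv ζ' v) * Gr A (Wv ζ v)) := by
    calc Gr A (Wv ζ' v) = Gr A (Wv ζ' v) * (Kmat A (Wv ζ v) * Gr A (Wv ζ v)) := by
          rw [h2, Matrix.mul_one]
      _ = _ := by
          rw [← Matrix.mul_assoc]
          nth_rewrite 1 [h3]
          rw [Matrix.mul_add, h1, Matrix.add_mul, Matrix.one_mul, Matrix.mul_smul, Matrix.mul_one,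
            Matrix.smul_mul]
  have h5 := congrFun (congrFun h4 a) b
  rw [h5, Matrix.add_apply, Matrix.smul_apply, Matrix.mul_apply, smul_eq_mul, Finset.mul_sum]

theorem mul_le_sq (a b : ℝ≥0∞) : a * b ≤ a ^ (2 : ℝ) + b ^ (2 : ℝ) := by
  rw [ENNReal.rpow_two, ENNReal.rpow_two, sq, sq]
  rcases le_total a b with h | h
  · exact (mul_le_mul_left h b).trans le_add_self
  · exact (mul_le_mul_right h a).trans le_self_add

theorem gg2_le [IsProbabilityMeasure ν] (H : Hyp ν s C) (hA : A.IsSymm) {ζ : ℂ} (hζ : 0 < ζ.im)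
    (a b : ι) : ∫⁻ v, gg A ζ (2 * s) a b v ∂(Measure.pi fun _ : ι => ν) ≤ C := by
  rw [← lintegral_lmarginal ν {a, b} (measurable_gg (2 * s) a b)]
  exact (lintegral_mono fun v => H.ap2 A hA ζ hζ a b v).trans (by simp)

theorem gg1_le [IsProbabilityMeasure ν] (H : Hyp ν s C) (hA : A.IsSymm) {ζ : ℂ} (hζ : 0 < ζ.im)
    (a b : ι) : ∫⁻ v, gg A ζ s a b v ∂(Measure.pi fun _ : ι => ν) ≤ C := by
  rw [← lintegral_lmarginal ν {a, b} (measurable_gg s a b)]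
  exact (lintegral_mono fun v => H.ap1 A hA ζ hζ a b v).trans (by simp)

theorem EG_shift [IsProbabilityMeasure ν] (H : Hyp ν s C) (hA : A.IsSymm) (hs : 0 < s)
    (hs1 : s ≤ 1) {ζ ζ' : ℂ} (hζ : 0 < ζ.im) (hζ' : 0 < ζ'.im) (a b : ι) :
    EG A ν ζ' s a b ≤ EG A ν ζ s a b + Fintype.card ι * (‖ζ' - ζ‖ₑ ^ s * (C + C)) := by
  have h1 : ∀ v, gg A ζ' s a b v ≤ gg A ζ s a b v +
      ∑ u, ‖ζ' - ζ‖ₑ ^ s * (gg A ζ' (2 * s) a u v + gg A ζ (2 * s) u b v) := by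
    intro v
    unfold gg
    rw [Gr_shift hA hζ hζ' v a b]
    refine (ENNReal.rpow_le_rpow (enorm_add_le _ _) hs.le).trans
      ((ENNReal.rpow_add_le_add_rpow _ _ hs.le hs1).trans (add_le_add le_rfl ?_))
    refine (enorm_sum_rpow_le _ _ hs hs1).trans (Finset.sum_le_sum fun u _ => ?_)
    rw [enorm_mul_rpow _ _ hs.le, enorm_mul_rpow _ _ hs.le]
    refine mul_le_mul_right ((mul_le_sq _ _).trans_eq ?_) _
    rw [← ENNReal.rpow_mul, ← ENNReal.rpow_mul, mul_comm s]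
  have hm : ∀ u, Measurable fun v => gg A ζ' (2 * s) a u v + gg A ζ (2 * s) u b v := fun u =>
    (measurable_gg _ _ _).add (measurable_gg _ _ _)
  rw [EG_eq hs.le, EG_eq hs.le]
  refine (lintegral_mono h1).trans ?_
  rw [lintegral_add_left (measurable_gg _ _ _),
    lintegral_finsetSum _ fun u _ => (hm u).const_mul _]
  refine add_le_add le_rfl ?_
  rw [← Finset.card_univ, ← nsmul_eq_mul]
  refine Finset.sum_le_card_nsmul _ _ _ fun u _ => ?_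
  rw [lintegral_const_mul _ (hm u), lintegral_add_left (measurable_gg _ _ _)]
  exact mul_le_mul_right (add_le_add (gg2_le H hA hζ' _ _) (gg2_le H hA hζ _ _)) _

theorem tau_shift [IsProbabilityMeasure ν] (H : Hyp ν s C) (hs : 0 < s) (hs1 : s ≤ 1) (r : ℕ) :
    ∃ N : ℕ, ∀ {ζ ζ' : ℂ}, 0 < ζ.im → 0 < ζ'.im →
      tau ν ζ' s r ≤ tau ν ζ s r + N * (‖ζ' - ζ‖ₑ ^ s * (C + C)) := by
  refine ⟨(sub (Bl 0 r) {0}).card * ((sub (Bl 0 r) (Sh 0 r)).card * Fintype.card (Bl 0 r)),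
    fun hζ hζ' => ?_⟩
  unfold tau ER
  refine (Finset.sum_le_sum fun a _ => Finset.sum_le_sum fun b _ =>
    EG_shift H (AF_symm _) hs hs1 hζ hζ' a b).trans_eq ?_
  simp only [Finset.sum_add_distrib, Finset.sum_const, nsmul_eq_mul]
  push_cast
  ring

/-- the finite volume criterion at the energy `E`, with threshold `θ` -/
def Crit (ν : Measure ℝ) (s : ℝ) (C θ : ℝ≥0∞) (E : ℝ) (r : ℕ) (η₀ : ℝ) : Prop :=
  ∀ η : ℝ, 0 < η → η ≤ η₀ → TH C r * tau ν (E + η * I) s r ≤ θ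

theorem crit_nhds [IsProbabilityMeasure ν] (hC : C ≠ ∞) (H : Hyp ν s C) (hs : 0 < s)
    (hs1 : s ≤ 1) {E₀ η₀ : ℝ} {r : ℕ} (h : Crit ν s C (1 / 4) E₀ r η₀) :
    ∀ᶠ E in 𝓝 E₀, Crit ν s C (1 / 2) E r η₀ := by
  obtain ⟨N, hN⟩ := tau_shift H hs hs1 r
  have hT : TH C r ≠ ∞ := by
    unfold TH
    finiteness
  have h1 : Tendsto (fun E : ℝ => ‖(E : ℂ) - E₀‖ₑ ^ s) (𝓝 E₀) (𝓝 0) := by
    have h2 : Continuous fun E : ℝ => ‖(E : ℂ) - E₀‖ₑ ^ s :=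
      ENNReal.continuous_rpow_const.comp (by fun_prop)
    simpa [hs] using h2.tendsto E₀
  have h3 := ENNReal.Tendsto.const_mul (a := TH C r * (N * (C + C))) h1 (Or.inr (by finiteness))
  rw [mul_zero] at h3
  filter_upwards [h3.eventually (ge_mem_nhds (show (0 : ℝ≥0∞) < 1 / 4 by simp))] with E hE η h0 h1
  have h4 := hN (ζ := E₀ + η * I) (ζ' := E + η * I) (by simpa using h0) (by simpa using h0)
  rw [add_sub_add_right_eq_sub] at h4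
  calc TH C r * tau ν (E + η * I) s r
      ≤ TH C r * (tau ν (E₀ + η * I) s r + N * (‖(E : ℂ) - E₀‖ₑ ^ s * (C + C))) := by gcongr
    _ = TH C r * tau ν (E₀ + η * I) s r + TH C r * (N * (C + C)) * ‖(E : ℂ) - E₀‖ₑ ^ s := by ring
    _ ≤ 1 / 4 + 1 / 4 := add_le_add (h η h0 h1) hE
    _ = 1 / 2 := by
      rw [← two_mul, show (4 : ℝ≥0∞) = 2 * 2 by norm_num, one_div, ENNReal.mul_inv (by simp)
        (by simp), ← mul_assoc, ENNReal.mul_inv_cancel (by simp) (by simp), one_mul, one_div]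

/-- uniformity on a neighbourhood of a compact set of energies -/
theorem crit_unif [IsProbabilityMeasure ν] (hC : C ≠ ∞) (H : Hyp ν s C) (hs : 0 < s)
    (hs1 : s ≤ 1) {K : Set ℝ} (hK : IsCompact K)
    (h : ∀ E ∈ K, ∃ r η₀, 0 < η₀ ∧ Crit ν s C (1 / 4) E r η₀) :
    ∃ U, IsOpen U ∧ K ⊆ U ∧ ∃ (R : ℕ) (η₀ : ℝ), 0 < η₀ ∧
      ∀ E ∈ U, ∃ r ≤ R, Crit ν s C (1 / 2) E r η₀ := by
  refine hK.induction_on (p := fun K => ∃ U, IsOpen U ∧ K ⊆ U ∧ ∃ (R : ℕ) (η₀ : ℝ), 0 < η₀ ∧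
      ∀ E ∈ U, ∃ r ≤ R, Crit ν s C (1 / 2) E r η₀)
    ⟨∅, isOpen_empty, le_rfl, 0, 1, one_pos, by simp⟩ ?_ ?_ ?_
  · rintro S T hST ⟨U, h1, h2, h3⟩
    exact ⟨U, h1, hST.trans h2, h3⟩
  · rintro S T ⟨U, h1, h2, R, η, h3, h4⟩ ⟨U', h1', h2', R', η', h3', h4'⟩
    refine ⟨U ∪ U', h1.union h1', Set.union_subset_union h2 h2', max R R', min η η',
      lt_min h3 h3', ?_⟩
    rintro E (hE | hE)
    · obtain ⟨r, h5, h6⟩ := h4 E hE
      exact ⟨r, h5.trans (le_max_left _ _), fun e h7 h8 => h6 e h7 (h8.trans (min_le_left _ _))⟩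
    · obtain ⟨r, h5, h6⟩ := h4' E hE
      exact ⟨r, h5.trans (le_max_right _ _), fun e h7 h8 => h6 e h7 (h8.trans (min_le_right _ _))⟩
  · intro E hE
    obtain ⟨r, η₀, h1, h2⟩ := h E hE
    obtain ⟨U, h3, h4, h5⟩ := eventually_nhds_iff.1 (crit_nhds hC H hs hs1 h2)
    exact ⟨U, mem_nhdsWithin_of_mem_nhds (h4.mem_nhds h5), U, h4, le_rfl, r, η₀, h1,
      fun E' hE' => ⟨r, le_rfl, h3 E' hE'⟩⟩

end Vale.Agent.N365
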