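import Mathlib.Analysis.InnerProductSpace.l2Space
import Mathlib.Analysis.Normed.Algebra.Exponential

/-!
# N365: the Anderson operator in an orthonormal basis `δ` indexed by `ℤ²`

The value `ψ(x)` of a vector `ψ` at the site `x` is `⟨δ x, ψ⟩`.
-/

namespace Vale.Agent.N365

variable {E : Type} [NormedAddCommGroup E] [InnerProductSpace ℂ E] [CompleteSpace E]

/-- The `ℓ¹` norm `|x₁| + |x₂|` of a site. -/
def len (x : ℤ × ℤ) : ℝ := (|x.1| + |x.2| : ℤ)

/-- `(H ψ)(x) = ∑_{|y - x|₁ = 1} ψ(y) + lam w(x) ψ(x)`. -/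
structure Anderson (δ : ℤ × ℤ → E) (lam : ℝ) (w : ℤ × ℤ → ℝ) (H : E →L[ℂ] E) : Prop where
  eq : ∀ (ψ : E) (x : ℤ × ℤ), inner ℂ (δ x) (H ψ) =
    (∑ᶠ y ∈ {y : ℤ × ℤ | |y.1 - x.1| + |y.2 - x.2| = 1}, inner ℂ (δ y) ψ) +
      (lam * w x : ℝ) * inner ℂ (δ x) ψ

/-- `u` is an eigenvector of `H`. -/
structure Eigenvector (H : E →L[ℂ] E) (u : E) : Prop where
  ne : u ≠ 0
  eq : ∃ z : ℂ, H u = z • u

/-- The eigenvectors of `H` span a dense subspace. -/
structure PurePointSpectrum (H : E →L[ℂ] E) : Prop where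
  dense : Dense (Submodule.span ℂ {u | Eigenvector H u} : Set E)

/-- `a` bounds the matrix element `⟨u, B v⟩` of all the operators `B` of norm at most `1` which
commute with `H`, and of `exp (-i t H)` for all times `t`. -/
structure Bounds (H : E →L[ℂ] E) (u v : E) (a : ℝ) : Prop where
  commutant : ∀ B : E →L[ℂ] E, Commute B H → ‖B‖ ≤ 1 → ‖inner ℂ u (B v)‖ ≤ a
  dynamics : ∀ t : ℝ, ‖inner ℂ u (NormedSpace.exp ((-t * Complex.I : ℂ) • H) v)‖ ≤ a

end Vale.Agent.N365
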