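import Vale.Agent.N365.Mean
import Vale.Agent.N365.Defs
import Vale.Agent.P365W82.Op
import Mathlib.Analysis.CStarAlgebra.Exponential

/-!
# N365: the eigenfunction correlator
-/

set_option linter.deprecated false

namespace Vale.Agent.N365

open MeasureTheory ProbabilityTheory Complex Filter Topology
open P365L P365L.Inf P365L.InfB P365T2.H439 Vale.Agent.P365W
open scoped ENNReal InnerProductSpace ComplexConjugate

theorem corr_le {ι : Type*} (φ : ι → L2) (hφ : ∀ i, ‖φ i‖ = 1) (F : Finset ι) (x y : Site)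
    (Z₁ Z₂ : Site → ℝ≥0∞) (τ : Site → ℝ)
    (h1 : ∀ z, ∑ i ∈ F, ENNReal.ofReal ((‖φ i x‖ * ‖φ i z‖) ^ 2 / 2) ≤ Z₁ z)
    (h2 : ∀ z, ∑ i ∈ F, ENNReal.ofReal ((‖φ i y‖ * ‖φ i z‖) ^ 2 / 2) ≤ Z₂ z) :
    ∑ i ∈ F, ENNReal.ofReal (‖φ i x‖ * ‖φ i y‖) ≤
      ∑' z, (ENNReal.ofReal (Real.exp (τ z)) * Z₁ z + ENNReal.ofReal (Real.exp (-τ z)) * Z₂ z) := by
  have h3 : ∀ i, ENNReal.ofReal (‖φ i x‖ * ‖φ i y‖) =
      ∑' z, ENNReal.ofReal (‖φ i x‖ * ‖φ i y‖ * ‖φ i z‖ ^ 2) := fun i => by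
    have h4 : HasSum (fun z => ‖φ i z‖ ^ 2) 1 := by simpa [hφ i] using lp.hasSum_norm two_pos' (φ i)
    have h5 := h4.mul_left (‖φ i x‖ * ‖φ i y‖)
    rw [← ENNReal.ofReal_tsum_of_nonneg (fun z => by positivity) h5.summable, h5.tsum_eq, mul_one]
  simp only [h3]
  rw [← Summable.tsum_finsetSum fun _ _ => ENNReal.summable]
  refine ENNReal.tsum_le_tsum fun z => le_trans ?_
    (add_le_add (mul_le_mul_right (h1 z) _) (mul_le_mul_right (h2 z) _))
  rw [Finset.mul_sum, Finset.mul_sum, ← Finset.sum_add_distrib]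
  refine Finset.sum_le_sum fun i _ => ?_
  rw [← ENNReal.ofReal_mul (Real.exp_pos _).le, ← ENNReal.ofReal_mul (Real.exp_pos _).le,
    ← ENNReal.ofReal_add (by positivity) (by positivity)]
  refine ENNReal.ofReal_le_ofReal ?_
  have h6 : Real.exp (τ z / 2) * Real.exp (-τ z / 2) = 1 := by
    rw [← Real.exp_add, ← add_div, add_neg_cancel, zero_div, Real.exp_zero]
  have h7 : ∀ a : ℝ, Real.exp a = Real.exp (a / 2) ^ 2 := fun a => by
    rw [sq, ← Real.exp_add, add_halves]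
  rw [h7 (τ z), h7 (-τ z)]
  have h8 := sq_nonneg (Real.exp (τ z / 2) * (‖φ i x‖ * ‖φ i z‖) -
    Real.exp (-τ z / 2) * (‖φ i y‖ * ‖φ i z‖))
  have h9 : ‖φ i x‖ * ‖φ i y‖ * ‖φ i z‖ ^ 2 = Real.exp (τ z / 2) * Real.exp (-τ z / 2) *
      (‖φ i x‖ * ‖φ i y‖ * ‖φ i z‖ ^ 2) := by rw [h6, one_mul]
  nlinarith

theorem proj_eq {V : Site → ℝ} {E : ℝ} {u : L2} (hu : IsEig V E u) (h1 : ‖u‖ = 1)
    (hs : ∀ v, IsEig V E v → ∃ c : ℂ, v = c • u) (x : Site) :
    (NE V E).starProjection (dl x) = conj (u x) • u := by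
  refine Submodule.eq_starProjection_of_mem_of_inner_eq_zero
    (Submodule.smul_mem _ _ (mem_NE.2 hu)) fun w hw => ?_
  obtain ⟨c, rfl⟩ := hs w (mem_NE.1 hw)
  rw [inner_smul_right, inner_sub_left, inner_smul_left, inner_dl, inner_self_eq_norm_sq_to_K, h1]
  simp

section

variable {Ω : Type*} [MeasurableSpace Ω] {P : Measure Ω} [IsProbabilityMeasure P]
  {γ : ℝ} {V : Site → Ω → ℝ}

/-- a measurable majorant of the eigenfunction correlator -/
noncomputable def YY (V : Site → Ω → ℝ) (U : Set ℝ) (c : ℝ) (x y : Site) (ω : Ω) : ℝ≥0∞ :=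
  ∑' z, (ENNReal.ofReal (Real.exp (c / 2 * (n1 (z - x) - n1 (z - y)))) * ZZ V U x (z - x) ω +
    ENNReal.ofReal (Real.exp (-(c / 2 * (n1 (z - x) - n1 (z - y))))) * ZZ V U y (z - y) ω)

theorem measurable_YY (hs : BSetup P V γ) (U : Set ℝ) (c : ℝ) (x y : Site) :
    Measurable (YY V U c x y) :=
  Measurable.ennreal_tsum fun z => ((measurable_ZZ hs eta_pos x (z - x) U).const_mul _).add
    ((measurable_ZZ hs eta_pos y (z - y) U).const_mul _)

theorem n1_tri (x y z : Site) : (n1 (x - y) : ℝ) ≤ n1 (z - x) + n1 (z - y) := by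
  have : n1 (x - y) ≤ n1 (z - x) + n1 (z - y) := by
    simp only [n1, Prod.fst_sub, Prod.snd_sub]
    omega
  exact_mod_cast this

theorem tsum_exp {c : ℝ} (hc : 0 < c) {D : ℝ} (hD : 0 ≤ D) (x : Site) :
    ∑' z, ENNReal.ofReal (D * Real.exp (-c * n1 (z - x))) =
      ENNReal.ofReal (D * ∑' z, Real.exp (-c * n1 z)) := by
  rw [← tsum_mul_left, ENNReal.ofReal_tsum_of_nonneg (fun z => by positivity)
    ((summable_n1 hc).mul_left D)]
  exact (Equiv.subRight x).tsum_eq fun z => ENNReal.ofReal (D * Real.exp (-c * n1 z))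

theorem YY_mean (hs : BSetup P V γ) {U : Set ℝ} {c D : ℝ} (hc : 0 < c) (hD : 0 ≤ D)
    (h : ∀ x y, ∫⁻ ω, ZZ V U x y ω ∂P ≤ ENNReal.ofReal (D * Real.exp (-c * n1 y))) (x y : Site) :
    ∫⁻ ω, YY V U c x y ω ∂P ≤ ENNReal.ofReal ((2 * D * ∑' z, Real.exp (-(c / 4) * n1 z)) *
      Real.exp (-(c / 4) * n1 (x - y))) := by
  have hm : ∀ x y, Measurable (ZZ V U x y) := fun x y => measurable_ZZ hs eta_pos x y U
  unfold YY
  rw [lintegral_tsum fun z => (((hm _ _).const_mul _).fun_add ((hm _ _).const_mul _)).aemeasurable,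
    mul_right_comm, ← tsum_exp (by positivity) (by positivity) x]
  refine ENNReal.tsum_le_tsum fun z => ?_
  rw [lintegral_add_left ((hm _ _).const_mul _), lintegral_const_mul _ (hm _ _),
    lintegral_const_mul _ (hm _ _)]
  refine (add_le_add (mul_le_mul_right (h _ _) _) (mul_le_mul_right (h _ _) _)).trans ?_
  rw [← ENNReal.ofReal_mul (Real.exp_pos _).le, ← ENNReal.ofReal_mul (Real.exp_pos _).le,
    ← ENNReal.ofReal_add (by positivity) (by positivity), mul_left_comm, mul_left_comm _ D,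
    ← Real.exp_add, ← Real.exp_add, mul_assoc, ← Real.exp_add, mul_assoc, two_mul]
  have h1 := n1_tri x y z
  have h2 : (0 : ℝ) ≤ n1 (z - y) := Nat.cast_nonneg _
  refine ENNReal.ofReal_le_ofReal (add_le_add ?_ ?_) <;>
    exact mul_le_mul_of_nonneg_left (Real.exp_le_exp.2 (by nlinarith)) hD

end

theorem eigen_iff {lam : ℝ} {w : Site → ℝ} {H : L2 →L[ℂ] L2} (h : IsAnderson lam w H) {E : ℝ}
    {u : L2} : H u = (E : ℂ) • u ↔ IsEig (fun x => lam * w x) E u := by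
  simp only [IsEig, ← lap_apply, ← isAnderson_iff.1 h u]
  exact ⟨fun h x => by rw [h]; rfl, fun h => lp.ext (funext h)⟩

/-- the correlator of the eigenbasis is at most `YY` -/
theorem basis_corr {Ω : Type*} {lam : ℝ} {w : Site → Ω → ℝ} {o : Ω} {H : L2 →L[ℂ] L2}
    (h : IsAnderson lam (fun x => w x o) H) {I U : Set ℝ} (hH : SimplePurePoint H I)
    (hU : IsOpen U) (hI : I ⊆ U) {b : HilbertBasis (eigenvalues H) ℂ L2}
    (hb : ∀ t, IsEigenvector H t.1 (b t)) (c : ℝ) (x y : Site) (F : Finset (eigenvalues H)) :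
    ∑ t ∈ F, ENNReal.ofReal (‖b t x‖ * ‖b t y‖) ≤ YY (fun x o => lam * w x o) U c x y o := by
  have key : ∀ x z, ∑ t ∈ F, ENNReal.ofReal ((‖b t x‖ * ‖b t z‖) ^ 2 / 2) ≤
      ZZ (fun x o => lam * w x o) U x (z - x) o := fun x z => by
    have h1 := sum_atom_le (fun x => lam * w x o) x z hU (F.map (Function.Embedding.subtype _))
      fun E hE => by
        obtain ⟨t, -, rfl⟩ := Finset.mem_map.1 hE
        exact hI (hH.dense ▸ subset_closure t.2)
    rw [Finset.sum_map] at h1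
    unfold ZZ XX
    rw [add_sub_cancel]
    refine le_trans (le_of_eq (Finset.sum_congr rfl fun t _ => ?_)) h1
    rw [Function.Embedding.coe_subtype, proj_eq ((eigen_iff h).1 (hb t).2) (b.orthonormal.1 t)
      fun v hv => ?_]
    · simp
    · by_cases h0 : v = 0
      · exact ⟨0, by simp [h0]⟩
      · exact hH.simple _ _ _ (hb t) ⟨h0, (eigen_iff h).2 hv⟩
  exact corr_le b b.orthonormal.1 F x y _ _ _ (key x) (key y)

/-- The unit vector `δ_x` of `ℓ²(ℤ²)`. -/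
noncomputable def delta (x : Site) : L2 := lp.single 2 x 1

/-- The matrix element `⟨δ_x, B δ_y⟩`. -/
noncomputable def entry (B : L2 →L[ℂ] L2) (x y : Site) : ℂ := B (lp.single 2 y 1) x

theorem inner_delta (B : L2 →L[ℂ] L2) (x y : Site) :
    inner ℂ (delta x) (B (delta y)) = entry B x y := by
  simp [delta, entry, lp.inner_single_left]

/-- the matrix elements of the contractions which commute with `H` -/
theorem entry_le {H B : L2 →L[ℂ] L2} {I : Set ℝ} (hH : SimplePurePoint H I)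
    {b : HilbertBasis (eigenvalues H) ℂ L2} (hb : ∀ t, IsEigenvector H t.1 (b t))
    (hB : Commute B H) (hB1 : ‖B‖ ≤ 1) (x y : Site) {Y : ℝ≥0∞}
    (hY : ∀ F : Finset (eigenvalues H), ∑ t ∈ F, ENNReal.ofReal (‖b t x‖ * ‖b t y‖) ≤ Y) :
    ‖entry B x y‖ₑ ≤ Y := by
  have h1 := ((b.hasSum_repr (dl y)).mapL B).mapL (innerSL ℂ (dl x))
  have h2 : ∀ t, ‖innerSL ℂ (dl x) (B (b.repr (dl y) t • b t))‖ ≤ ‖b t x‖ * ‖b t y‖ := fun t => by
    obtain ⟨a, ha⟩ : ∃ a : ℂ, B (b t) = a • b t := by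
      by_cases h0 : B (b t) = 0
      · exact ⟨0, by simp [h0]⟩
      · refine hH.simple _ _ _ (hb t) ⟨h0, ?_⟩
        rw [← map_smul, ← (hb t).2]
        exact (congrArg (fun T : L2 →L[ℂ] L2 => T (b t)) hB.eq).symm
    have h3 : ‖a‖ ≤ 1 := by
      have h4 := B.le_of_opNorm_le hB1 (b t)
      rwa [ha, norm_smul, b.orthonormal.1, mul_one, mul_one] at h4
    rw [map_smul, ha, b.repr_apply_apply, ← inner_conj_symm, inner_dl, innerSL_apply_apply,
      inner_dl]
    change ‖conj (b t y) * (a * b t x)‖ ≤ _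
    rw [norm_mul, norm_mul, RCLike.norm_conj, mul_comm]
    exact mul_le_mul_of_nonneg_right (mul_le_of_le_one_left (norm_nonneg _) h3) (norm_nonneg _)
  rw [innerSL_apply_apply, inner_dl] at h1
  refine le_of_tendsto' (continuous_enorm.tendsto _ |>.comp h1) fun F => ?_
  refine (enorm_sum_le _ _).trans (le_trans (Finset.sum_le_sum fun t _ => ?_) (hY F))
  rw [← ofReal_norm]
  exact ENNReal.ofReal_le_ofReal (h2 t)

theorem exp_contraction {E : Type} [NormedAddCommGroup E] [InnerProductSpace ℂ E]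
    [CompleteSpace E] {H : E →L[ℂ] E} (hH : IsSelfAdjoint H) (t : ℝ) :
    Commute (NormedSpace.exp ((-t * I : ℂ) • H)) H ∧ ‖NormedSpace.exp ((-t * I : ℂ) • H)‖ ≤ 1 := by
  refine ⟨((Commute.refl H).smul_left _).exp_left, ?_⟩
  let +nondep : NormedAlgebra ℚ (E →L[ℂ] E) := .restrictScalars ℚ ℂ _
  have h1 := NormedSpace.exp_mem_unitary_of_mem_skewAdjoint
    (hH.smul_mem_skewAdjoint (r := (-t * I : ℂ)) (by simp [skewAdjoint.mem_iff]))
  have h2 := CStarRing.norm_coe_unitary_mul ⟨_, h1⟩ 1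
  rw [mul_one] at h2
  exact h2.trans_le ContinuousLinearMap.norm_id_le

end Vale.Agent.N365
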