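import Vale.Agent.N365.Cont

/-!
# N365: the finite volume criterion at the band edges (a Lifshitz tail argument)
-/

namespace Vale.Agent.N365

open MeasureTheory Complex Matrix Filter Topology P365L P365L.Comp P365X
open scoped ENNReal

/-- decay of subsolutions of a random walk with killing at a good site of every short segment -/
theorem decay_abs {h : Site → ℝ} {good : Site → Prop} {r l : ℕ} {θ m : ℝ} (hθ : 0 ≤ θ)
    (hθ1 : θ ≤ 1) (hm : 0 ≤ m)
    (step : ∀ x, ds x 0 < r → ∀ m', (∀ w, ds w 0 ≤ ds x 0 + 1 → h w ≤ m') →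
      4 * h x ≤ h (x + (1, 0)) + 3 * m' ∧ (good x → h x ≤ (1 - θ) * m'))
    (blocks : ∀ x, ds x 0 + l ≤ r → ∃ i < l, good (x + ((i : ℤ), 0))) (bound : ∀ w, h w ≤ m)
    (j : ℕ) : ∀ x, ds x 0 + j * l ≤ r → h x ≤ (1 - θ / 4 ^ l) ^ j * m := by
  have hq : 0 ≤ 1 - θ / 4 ^ l := by
    have : θ / 4 ^ l ≤ 1 := div_le_one_of_le₀ (hθ1.trans (one_le_pow₀ (by norm_num))) (by positivity)
    linarith
  induction j with
  | zero => exact fun x _ => by simpa using bound x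
  | succ j ih =>
    set m' := (1 - θ / 4 ^ l) ^ j * m with hm'
    have hm0 : 0 ≤ m' := mul_nonneg (pow_nonneg hq _) hm
    have key : ∀ (i : ℕ) (x : Site), ds x 0 + i + 1 + j * l ≤ r → good (x + ((i : ℤ), 0)) →
        h x ≤ (1 - θ / 4 ^ i) * m' := by
      intro i
      induction i with
      | zero =>
        intro x hx hg
        have h1 := (step x (by omega) m' fun w hw => ih w (by omega)).2
        simpa using h1 (by simpa [show ((0 : ℤ), (0 : ℤ)) = (0 : Site) from rfl] using hg)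
      | succ i ihi =>
        intro x hx hg
        have h1 := (step x (by omega) m' fun w hw => ih w (by omega)).1
        have h2 : ds (x + (1, 0)) 0 ≤ ds x 0 + 1 := by
          unfold ds
          simp only [Prod.fst_add, Prod.snd_add, Prod.fst_zero, Prod.snd_zero]
          omega
        have h3 := ihi (x + (1, 0)) (by omega) (by
          convert hg using 1
          ext <;> simp
          ring)
        have h4 : θ / 4 ^ (i + 1) = θ / 4 ^ i / 4 := by rw [pow_succ, div_div]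
        rw [h4]
        linarith
    intro x hx
    have h1 : (j + 1) * l = j * l + l := by ring
    obtain ⟨i, hi, hg⟩ := blocks x (by omega)
    refine (key i x (by omega) hg).trans ?_
    have h2 : θ / 4 ^ l ≤ θ / 4 ^ i :=
      div_le_div_of_nonneg_left hθ (by positivity) (pow_le_pow_right₀ (by norm_num) hi.le)
    rw [pow_succ', mul_assoc]
    exact mul_le_mul_of_nonneg_right (by linarith) hm0

variable {X : Finset Site} {lam : ℝ} {ζ : ℂ}

theorem AF_nonneg (x w : X) : 0 ≤ AF X x w := by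
  rcases adj_eq_one_or (x : Site) w with h | h <;> simp [AF, h]

theorem col_le (hζ : 0 < ζ.im) (hE : 4 + lam ≤ |ζ.re|) (v : X → ℝ) {x b : X} (hx : x ≠ b) :
    (4 + lam - |v x|) * ‖Gr (AF X) (Wv ζ v) x b‖ ≤ ∑ w, AF X x w * ‖Gr (AF X) (Wv ζ v) w b‖ := by
  have h1 := Kmat_mulVec_Gr (AF_symm X) (Wv_neg hζ v) b x
  rw [Kmat_mulVec, if_neg hx, add_eq_zero_iff_neg_eq] at h1
  have h3 : 4 + lam - |v x| ≤ ‖Wv ζ v x‖ := by
    have h4 : |v x - ζ.re| ≤ ‖Wv ζ v x‖ := by simpa [Wv] using Complex.abs_re_le_norm (Wv ζ v x)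
    have h7 := abs_sub_abs_le_abs_sub ζ.re (v x)
    rw [abs_sub_comm] at h7
    linarith
  refine (mul_le_mul_of_nonneg_right h3 (norm_nonneg _)).trans ?_
  rw [← norm_mul, ← h1, norm_neg]
  refine (norm_sum_le _ _).trans_eq (Finset.sum_congr rfl fun w _ => ?_)
  rw [norm_mul, Complex.norm_real, Real.norm_of_nonneg (AF_nonneg x w)]

/-- deterministic decay for the configurations with a good site in every segment -/
theorem Gr_edge (hζ : 0 < ζ.im) (hE : 4 + lam ≤ |ζ.re|) {r l j : ℕ} (hj : j * l ≤ r) {κ : ℝ}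
    (hκ : 0 ≤ κ) (hκ1 : κ ≤ 1) {v : Bl 0 r → ℝ} (hv : ∀ x, |v x| ≤ lam)
    (hg : ∀ x : Site, ds x 0 + l ≤ r → ∃ i < l, ∃ y : Bl 0 r, y = x + ((i : ℤ), (0 : ℤ)) ∧
      |v y| ≤ lam - κ) {o b : Bl 0 r} (ho : (o : Site) = 0) (hb : ds b 0 = r) :
    ∃ w, ‖Gr (AF _) (Wv ζ v) o b‖ ≤ (1 - κ / 5 / 4 ^ l) ^ j * ‖Gr (AF _) (Wv ζ v) w b‖ := by
  obtain ⟨w, -, hw⟩ := Finset.exists_max_image Finset.univ
    (fun x => ‖Gr (AF _) (Wv ζ v) x b‖) ⟨o, Finset.mem_univ _⟩
  set h : Site → ℝ := fun z =>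
    if hz : z ∈ Bl 0 r then ‖Gr (AF _) (Wv ζ v) ⟨z, hz⟩ b‖ else 0 with hh
  have h0 : ∀ y : Bl 0 r, h y = ‖Gr (AF _) (Wv ζ v) y b‖ := fun y => dif_pos y.2
  refine ⟨w, ?_⟩
  rw [← h0 o]
  refine decay_abs (good := fun z => ∃ y : Bl 0 r, y = z ∧ |v y| ≤ lam - κ) (r := r)
    (by positivity) (by linarith) (norm_nonneg _) (fun x hx m' hm' => ?_) hg (fun z => ?_) j o
    (by rw [ho, ds_self]; omega)
  · obtain ⟨x, hx1, rfl⟩ : ∃ y : Bl 0 r, ds y 0 < r ∧ y = x := ⟨⟨x, mem_Bl.2 hx.le⟩, hx, rfl⟩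
    have hxb : x ≠ b := fun h => by rw [h] at hx1; omega
    have h1 := col_le hζ hE v hxb
    have h2 : ∀ w, 0 ≤ AF _ x w * (m' - ‖Gr (AF _) (Wv ζ v) w b‖) := fun w => by
      by_cases h3 : AF _ x w = 0
      · rw [h3, zero_mul]
      · exact mul_nonneg (AF_nonneg _ _) (sub_nonneg.2 (h0 w ▸ hm' w (ds_adj h3).1))
    have hm0 : 0 ≤ m' := (norm_nonneg _).trans (h0 x ▸ hm' x (Nat.le_succ _))
    have h4 : ∑ w, AF _ x w * ‖Gr (AF _) (Wv ζ v) w b‖ +
        ∑ w, AF _ x w * (m' - ‖Gr (AF _) (Wv ζ v) w b‖) ≤ 4 * m' := by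
      rw [← Finset.sum_add_distrib]
      simp only [← mul_add, add_sub_cancel, ← Finset.sum_mul]
      refine mul_le_mul_of_nonneg_right (le_trans (Finset.sum_le_sum fun w _ => le_abs_self _)
        (AF_row _ x)) hm0
    have h5 := norm_nonneg (Gr (AF _) (Wv ζ v) x b)
    rw [h0]
    constructor
    · have h6 : (x : Site) + (1, 0) ∈ Bl 0 r := by
        rw [mem_Bl]
        unfold ds at hx1 ⊢
        simp only [Prod.fst_add, Prod.snd_add, Prod.fst_zero, Prod.snd_zero] at hx1 ⊢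
        omega
      have h7 := Finset.single_le_sum (fun w _ => h2 w) (Finset.mem_univ ⟨_, h6⟩)
      have h8 : AF _ x ⟨_, h6⟩ = 1 := by simp [AF, adj]
      rw [h8, ← h0] at h7
      nlinarith [hv x]
    · rintro ⟨y, hy, hy1⟩
      rw [Subtype.ext hy] at hy1
      have h7 := Finset.sum_nonneg fun w (_ : w ∈ Finset.univ) => h2 w
      have h8 : (4 + κ) * ‖Gr (AF _) (Wv ζ v) x b‖ ≤ 4 * m' := by nlinarith
      have h9 : 4 * m' ≤ (4 + κ) * ((1 - κ / 5) * m') := by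
        nlinarith [mul_nonneg (mul_nonneg hκ (sub_nonneg.2 hκ1)) hm0]
      exact le_of_mul_le_mul_left (h8.trans h9) (by positivity)
  · by_cases hz : z ∈ Bl 0 r
    · exact (h0 ⟨z, hz⟩).trans_le (hw _ (Finset.mem_univ _))
    · exact (dif_neg hz).trans_le (norm_nonneg _)

/-- the values of the potential close to the extreme ones -/
def badSet (lam κ : ℝ) : Set ℝ := Set.Icc (lam - κ) lam ∪ Set.Icc (-lam) (-lam + κ)

/-- a horizontal segment -/
def seg (x : Site) (l : ℕ) : Finset Site := (Finset.range l).image fun i : ℕ => x + ((i : ℤ), 0)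

/-- some segment has only bad sites -/
def Bad (lam κ : ℝ) (r l : ℕ) : Set (Bl 0 r → ℝ) :=
  ⋃ x ∈ (Bl 0 r).filter fun x => ds x 0 + l ≤ r,
    (sub (Bl 0 r) (seg x l) : Set (Bl 0 r)).pi fun _ => badSet lam κ

variable {ν : Measure ℝ} {K κ s : ℝ} {C : ℝ≥0∞}

theorem meas_badSet (hK : ν ≤ ENNReal.ofReal K • (volume : Measure ℝ)) (hK0 : 0 ≤ K)
    (hκ : 0 ≤ κ) : ν (badSet lam κ) ≤ ENNReal.ofReal (2 * K * κ) := by
  refine (Measure.le_iff'.1 hK _).trans ?_
  rw [Measure.smul_apply, smul_eq_mul]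
  refine (mul_le_mul_right (measure_union_le _ _) _).trans_eq ?_
  rw [Real.volume_Icc, Real.volume_Icc, ← ENNReal.ofReal_add (by linarith) (by linarith),
    ← ENNReal.ofReal_mul hK0]
  congr 1
  ring

theorem measurableSet_Bad (r l : ℕ) : MeasurableSet (Bad lam κ r l) :=
  Finset.measurableSet_biUnion _ fun _ _ => MeasurableSet.pi (Set.to_countable _)
    fun _ _ => measurableSet_Icc.union measurableSet_Icc

theorem seg_mem {x : Site} {r l i : ℕ} (hx : ds x 0 + l ≤ r) (hi : i < l) :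
    x + ((i : ℤ), 0) ∈ Bl 0 r := by
  rw [mem_Bl]
  unfold ds at hx ⊢
  simp only [Prod.fst_add, Prod.snd_add, Prod.fst_zero, Prod.snd_zero] at hx ⊢
  omega

theorem meas_Bad [IsProbabilityMeasure ν] (r l : ℕ) :
    Measure.pi (fun _ => ν) (Bad lam κ r l) ≤ (Bl 0 r).card * ν (badSet lam κ) ^ l := by
  refine (measure_biUnion_finset_le _ _).trans ((Finset.sum_le_card_nsmul _ _
    (ν (badSet lam κ) ^ l) fun x hx => ?_).trans ?_)
  · have h1 : sub (Bl 0 r) (seg x l) = (seg x l).subtype (· ∈ Bl 0 r) := by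
      ext y
      rw [mem_sub, Finset.mem_subtype]
    have h2 : (sub (Bl 0 r) (seg x l)).card = l := by
      rw [h1, Finset.card_subtype, Finset.filter_true_of_mem, seg,
        Finset.card_image_of_injective _ fun i j h => by simpa using h, Finset.card_range]
      intro y hy
      obtain ⟨i, hi, rfl⟩ := Finset.mem_image.1 hy
      exact seg_mem (Finset.mem_filter.1 hx).2 (Finset.mem_range.1 hi)
    rw [Measure.pi_pi_finset, Finset.prod_const, h2]
  · rw [nsmul_eq_mul]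
    gcongr
    exact Finset.filter_subset _ _

theorem le_mul_sq (a : ℝ≥0∞) {t : ℝ≥0∞} (h0 : t ≠ 0) (ht : t ≠ ∞) :
    a ≤ t * a ^ (2 : ℝ) + t⁻¹ := by
  rcases le_total a t⁻¹ with h | h
  · exact h.trans le_add_self
  · refine le_trans ?_ le_self_add
    rw [ENNReal.rpow_two, sq, ← mul_assoc]
    calc a = t * t⁻¹ * a := by rw [ENNReal.mul_inv_cancel h0 ht, one_mul]
      _ ≤ _ := by gcongr

theorem EG_edge [IsProbabilityMeasure ν] (H : Hyp ν s C) (hs : 0 < s)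
    (hν : ∀ᵐ t ∂ν, |t| ≤ lam) (hζ : 0 < ζ.im) (hE : 4 + lam ≤ |ζ.re|) {r l j : ℕ}
    (hj : j * l ≤ r) (hκ : 0 ≤ κ) (hκ1 : κ ≤ 1) {t : ℝ≥0∞} (h0 : t ≠ 0) (ht : t ≠ ∞)
    {o b : Bl 0 r} (ho : (o : Site) = 0) (hb : ds b 0 = r) :
    EG (AF _) ν ζ s o b ≤ ‖(1 - κ / 5 / 4 ^ l) ^ j‖ₑ ^ s * ((Bl 0 r).card * C) +
      (t * C + t⁻¹ * ((Bl 0 r).card * ν (badSet lam κ) ^ l)) := by
  have h1 : ∀ᵐ v ∂(Measure.pi fun _ : Bl 0 r => ν), ∀ x, |v x| ≤ lam := ae_all_iff.2 fun x =>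
    (Measure.quasiMeasurePreserving_eval (fun _ : Bl 0 r => ν) x).ae hν
  have h2 : ∀ᵐ v ∂(Measure.pi fun _ : Bl 0 r => ν), gg (AF _) ζ s o b v ≤
      ‖(1 - κ / 5 / 4 ^ l) ^ j‖ₑ ^ s * ∑ w, gg (AF _) ζ s w b v + (t * gg (AF _) ζ (2 * s) o b v +
        t⁻¹ * (Bad lam κ r l).indicator 1 v) := by
    filter_upwards [h1] with v hv
    by_cases h3 : v ∈ Bad lam κ r l
    · rw [Set.indicator_of_mem h3, Pi.one_apply, mul_one, ← gg_sq hs]
      exact (le_mul_sq _ h0 ht).trans le_add_self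
    · obtain ⟨w, hw⟩ := Gr_edge hζ hE hj hκ hκ1 hv (fun x hx => by
        by_contra h4
        push Not at h4
        refine h3 (Set.mem_biUnion (Finset.mem_filter.2 ⟨mem_Bl.2 (by omega), hx⟩) fun y hy => ?_)
        obtain ⟨i, hi, hi2⟩ := Finset.mem_image.1 (mem_sub.1 hy)
        have h5 := h4 i (Finset.mem_range.1 hi) y hi2.symm
        have h6 := abs_le.1 (hv y)
        rcases lt_abs.1 h5 with h | h
        · exact Or.inl ⟨h.le, h6.2⟩
        · exact Or.inr ⟨h6.1, by linarith⟩) ho hb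
      refine le_trans ?_ le_self_add
      refine le_trans ?_ (mul_le_mul_right (Finset.single_le_sum
        (f := fun w => gg (AF _) ζ s w b v) (fun _ _ => zero_le) (Finset.mem_univ w)) _)
      unfold gg
      rw [← ENNReal.mul_rpow_of_nonneg _ _ hs.le]
      refine ENNReal.rpow_le_rpow ?_ hs.le
      rw [← ofReal_norm, ← ofReal_norm, ← ofReal_norm, ← ENNReal.ofReal_mul (norm_nonneg _)]
      exact ENNReal.ofReal_le_ofReal (hw.trans
        (mul_le_mul_of_nonneg_right (le_abs_self _) (norm_nonneg _)))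
  have h3 : Measurable fun v => ∑ w, gg (AF (Bl 0 r)) ζ s w b v :=
    Finset.measurable_sum _ fun w _ => measurable_gg _ _ _
  rw [EG_eq hs.le]
  refine (lintegral_mono_ae h2).trans ?_
  rw [lintegral_add_left (h3.const_mul _), lintegral_add_left ((measurable_gg _ _ _).const_mul _),
    lintegral_const_mul _ h3, lintegral_const_mul _ (measurable_gg _ _ _),
    lintegral_const_mul _ (measurable_one.indicator (measurableSet_Bad r l)),
    lintegral_indicator_one (measurableSet_Bad r l),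
    lintegral_finsetSum _ fun w _ => measurable_gg _ _ _]
  gcongr
  · refine (Finset.sum_le_card_nsmul _ _ C fun w _ => gg1_le H (AF_symm _) hζ w b).trans_eq ?_
    simp
  · exact gg2_le H (AF_symm _) hζ o b
  · exact meas_Bad r l

theorem card_Bl (r : ℕ) : (Bl 0 r).card = (2 * r + 1) ^ 2 := by
  unfold Bl
  rw [Finset.card_product, Int.card_Icc, Int.card_Icc, sq]
  congr 1 <;> simp only [Prod.fst_zero, Prod.snd_zero] <;> omega

theorem exists_scale (a b : ℝ) {c : ℝ} (hc : 0 < c) :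
    ∃ k : ℕ, 1 ≤ k ∧ a * ((k : ℝ) ^ 10 * Real.exp (-c * k)) + b * (k : ℝ)⁻¹ ≤ 1 / 4 := by
  have h1 := ((tendsto_rpow_mul_exp_neg_mul_atTop_nhds_zero 10 c hc).const_mul a).add
    (tendsto_inv_atTop_zero.const_mul b)
  rw [mul_zero, mul_zero, add_zero] at h1
  obtain ⟨k, h2, h3⟩ := ((eventually_ge_atTop 1).and ((h1.comp tendsto_natCast_atTop_atTop).eventually
    (ge_mem_nhds (show (0 : ℝ) < 1 / 4 by norm_num)))).exists
  exact ⟨k, h2, by simpa using h3⟩

/-- **the criterion holds at the band edges** -/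
theorem crit_edge [IsProbabilityMeasure ν] (hC : C ≠ ∞) (H : Hyp ν s C) (hs : 0 < s)
    (hK : ν ≤ ENNReal.ofReal K • (volume : Measure ℝ)) (hK0 : 0 ≤ K) (hν : ∀ᵐ t ∂ν, |t| ≤ lam)
    {E : ℝ} (hE : 4 + lam ≤ |E|) : ∃ r η₀, 0 < η₀ ∧ Crit ν s C (1 / 4) E r η₀ := by
  obtain ⟨c, hc, rfl⟩ : ∃ c : ℝ, 0 ≤ c ∧ C = ENNReal.ofReal c :=
    ⟨_, ENNReal.toReal_nonneg, (ENNReal.ofReal_toReal hC).symm⟩
  obtain ⟨k, hk, hk2⟩ := exists_scale (16 * c * (1 + 4 * c) * 164 ^ 5 * c)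
    (16 * c * (1 + 4 * c) * (164 ^ 3 * c + 164 ^ 5 * (2 * K) ^ 18))
    (c := 1 / 5 / 4 ^ 18 * s) (by positivity)
  have k1 : (1 : ℝ) ≤ k := by exact_mod_cast hk
  have k2 : 1 ≤ k ^ 2 := Nat.one_le_pow _ _ hk
  refine ⟨k ^ 2 * 18, 1, one_pos, fun η hη _ => ?_⟩
  set r := k ^ 2 * 18 with hr
  set n : ℝ := 164 * (k : ℝ) ^ 2 with hn
  have hn0 : 0 ≤ n := by positivity
  clear_value n
  have hN : ((8 * r + 20 : ℕ) : ℝ≥0∞) ≤ ENNReal.ofReal n := by
    rw [← ENNReal.ofReal_natCast]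
    refine ENNReal.ofReal_le_ofReal ?_
    rw [hn]
    exact_mod_cast (by omega : 8 * r + 20 ≤ 164 * k ^ 2)
  have hTH : TH (ENNReal.ofReal c) r ≤ ENNReal.ofReal (16 * c * (1 + 4 * c) * n ^ 2) := by
    have h1 : (1 : ℝ) ≤ n := by nlinarith
    calc TH (ENNReal.ofReal c) r ≤ 16 * ENNReal.ofReal c *
          (1 + 4 * ENNReal.ofReal c * ENNReal.ofReal n) * ENNReal.ofReal n := by
          unfold TH
          gcongr
      _ = ENNReal.ofReal (16 * c * (1 + 4 * c * n) * n) := by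
          rw [ENNReal.ofReal_mul (by positivity), ENNReal.ofReal_mul (by positivity),
            ENNReal.ofReal_mul (by positivity), ENNReal.ofReal_add (by positivity) (by positivity),
            ENNReal.ofReal_mul (by positivity), ENNReal.ofReal_mul (by positivity)]
          simp
      _ ≤ _ := ENNReal.ofReal_le_ofReal (by
          nlinarith [mul_nonneg (mul_nonneg hc hn0) (sub_nonneg.2 h1)])
  have hSh : ((sub (Bl 0 r) (Sh 0 r)).card : ℝ≥0∞) ≤ ENNReal.ofReal n := by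
    refine le_trans ?_ hN
    exact_mod_cast ((card_sub_le _ _).trans (card_Sh_le _ _)).trans (by omega)
  have hBl : ((Bl 0 r).card : ℝ≥0∞) ≤ ENNReal.ofReal (n ^ 2) := by
    rw [card_Bl, ENNReal.ofReal_pow hn0, Nat.cast_pow]
    gcongr
    exact le_trans (by exact_mod_cast (by omega : 2 * r + 1 ≤ 8 * r + 20)) hN
  have hκ : (k : ℝ)⁻¹ ≤ 1 := inv_le_one_of_one_le₀ k1
  have hQ : ‖(1 - (k : ℝ)⁻¹ / 5 / 4 ^ 18) ^ (k ^ 2)‖ₑ ^ s ≤
      ENNReal.ofReal (Real.exp (-(1 / 5 / 4 ^ 18 * s) * k)) := by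
    have h1 : 0 ≤ 1 - (k : ℝ)⁻¹ / 5 / 4 ^ 18 := by linarith
    have h2 : (1 - (k : ℝ)⁻¹ / 5 / 4 ^ 18) ^ (k ^ 2) ≤ Real.exp (-(1 / 5 / 4 ^ 18) * k) := by
      refine (pow_le_pow_left₀ h1 (Real.one_sub_le_exp_neg _) _).trans_eq ?_
      rw [← Real.exp_nat_mul]
      congr 1
      push_cast
      field_simp
    rw [Real.enorm_eq_ofReal (pow_nonneg h1 _), ENNReal.ofReal_rpow_of_nonneg (pow_nonneg h1 _) hs.le]
    refine ENNReal.ofReal_le_ofReal ((Real.rpow_le_rpow (pow_nonneg h1 _) h2 hs.le).trans_eq ?_)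
    rw [← Real.exp_mul]
    congr 1
    ring
  have hq : ν (badSet lam (k : ℝ)⁻¹) ^ 18 ≤ ENNReal.ofReal ((2 * K * (k : ℝ)⁻¹) ^ 18) := by
    rw [ENNReal.ofReal_pow (by positivity)]
    gcongr
    exact meas_badSet hK hK0 (by positivity)
  have h0X : (0 : Site) ∈ Bl 0 r := mem_Bl.2 (by rw [ds_self]; omega)
  have hs0 : sub (Bl 0 r) {(0 : Site)} = {⟨0, h0X⟩} := by
    ext v
    rw [mem_sub, Finset.mem_singleton, Finset.mem_singleton, Subtype.ext_iff]
  have ht : tau ν (E + η * I) s r ≤ ENNReal.ofReal n *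
      (ENNReal.ofReal (Real.exp (-(1 / 5 / 4 ^ 18 * s) * k)) *
        (ENNReal.ofReal (n ^ 2) * ENNReal.ofReal c) + (ENNReal.ofReal ((k : ℝ) ^ 7)⁻¹ *
        ENNReal.ofReal c + ENNReal.ofReal ((k : ℝ) ^ 7) * (ENNReal.ofReal (n ^ 2) *
          ENNReal.ofReal ((2 * K * (k : ℝ)⁻¹) ^ 18)))) := by
    unfold tau ER
    rw [hs0, Finset.sum_singleton]
    refine (Finset.sum_le_card_nsmul _ _ _ fun b hb => EG_edge (κ := (k : ℝ)⁻¹) (l := 18)
      (j := k ^ 2) (t := ENNReal.ofReal ((k : ℝ) ^ 7)⁻¹) H hs hν (by simpa using hη)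
      (by simpa using hE) le_rfl (by positivity) hκ
      (ENNReal.ofReal_pos.2 (by positivity)).ne' ENNReal.ofReal_ne_top rfl
      (mem_Sh.1 (Comp.mem_sub.1 hb))).trans ?_
    rw [nsmul_eq_mul, ← ENNReal.ofReal_inv_of_pos (by positivity), inv_inv]
    gcongr
  refine (mul_le_mul' hTH ht).trans ?_
  rw [← ENNReal.ofReal_mul (by positivity), ← ENNReal.ofReal_mul (by positivity),
    ← ENNReal.ofReal_mul (by positivity), ← ENNReal.ofReal_mul (by positivity),
    ← ENNReal.ofReal_mul (by positivity), ← ENNReal.ofReal_add (by positivity) (by positivity),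
    ← ENNReal.ofReal_add (by positivity) (by positivity), ← ENNReal.ofReal_mul (by positivity),
    ← ENNReal.ofReal_mul (by positivity),
    show (1 / 4 : ℝ≥0∞) = ENNReal.ofReal (1 / 4) by simp]
  refine ENNReal.ofReal_le_ofReal (le_trans (le_of_eq ?_) hk2)
  rw [hn]
  field_simp

end Vale.Agent.N365
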