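import Vale.Agent.P365.T2.H439.ExpGoal
import Vale.Agent.N365.Edge

set_option linter.all false

/-!
# N365: the finite volume criterion inside the spectrum

The proof of `comp_crit` is the proof of `P365CUL.comp_mainL`, stopped at the finite volume
criterion and with a smaller threshold.
-/

namespace Vale.Agent.N365

section

open MeasureTheory ProbabilityTheory Complex Matrix Function P365S6 Filter Topology
open P365L hiding cut
open P365L.Comp P365X P365CU P365CUL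
open scoped ENNReal Real

variable {lam w C c p : ℝ} {μ : Measure SV} [IsProbabilityMeasure μ] {r : ℝ → ℝ → ℝ}

theorem comp_crit (hlam : 0 < lam) (hLaw : LawP lam w C μ r) (hc : 0 < c) (hp : 0 < p)
    (hp4 : p < 1 / 4) :
    ∃ th0 : ℝ, 0 < th0 ∧ ∃ M1 : ℕ, ∀ m0 ≥ M1, ∃ n : ℕ, ∀ E : ℝ,
      (∀ j < n, SmTor μ c p th0 E (4 ^ j * m0)) →
      ∃ R η₀, 0 < η₀ ∧ Crit (scl lam uni) p (CL lam p) (1 / 4) E R η₀ := by
  have hp1 : p < 1 := by linarith
  have hC0 := hLaw.C_nonneg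
  have hw0 := hLaw.w_pos
  obtain ⟨K, hK, HK⟩ := est_all (p := p) (lam := lam) hp hp1 hlam
  have hCK := CK_nonneg hp hp1
  have hπ := Real.pi_pos
  obtain ⟨B0, hB0⟩ : ∃ B0, B0 = π * (1 + CK p * 2 ^ p) * Real.exp (162 * (C * c ^ 2)) := ⟨_, rfl⟩
  have hB0p : 0 < B0 := by
    rw [hB0]
    positivity
  obtain ⟨G2, hG2⟩ : ∃ G2, G2 = (1 + 32 / c) ^ p * (1 + 32 / c) ^ p := ⟨_, rfl⟩
  have hG2p : 0 < G2 := by
    rw [hG2]
    positivity
  obtain ⟨Gg, hGg⟩ : ∃ Gg, Gg = (1 + 32 / c) ^ (2 * p) := ⟨_, rfl⟩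
  have hGgp : 0 < Gg := by
    rw [hGg]
    positivity
  refine ⟨1 / (1024 * B0 * G2 * Gg), by positivity, ?_⟩
  obtain ⟨Ma, hMa⟩ := bad_small (B0 * G2 * 8424) 3
  obtain ⟨Mb, hMb⟩ := bad_small (B0 * K * 56) 1
  obtain ⟨Mc, hMc⟩ := bad_small 56 1
  have hev : ∀ᶠ m : ℕ in atTop, c ≤ w * m ∧ 2 * (C * c ^ 2) ≤ (m : ℝ) ^ 2 ∧
      C * c ^ 2 < (m : ℝ) ^ 2 := by
    have h1 : ∀ᶠ m : ℕ in atTop, c / w ≤ m := tendsto_natCast_atTop_atTop.eventually_ge_atTop _
    have h2 : ∀ᶠ m : ℕ in atTop, 2 * (C * c ^ 2) + 1 ≤ m :=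
      tendsto_natCast_atTop_atTop.eventually_ge_atTop _
    filter_upwards [h1, h2] with m a1 a2
    have hx : 0 ≤ C * c ^ 2 := by positivity
    have a3 : (m : ℝ) ≤ (m : ℝ) ^ 2 := by nlinarith
    refine ⟨?_, by linarith, by linarith⟩
    rw [div_le_iff₀ hw0] at a1
    linarith
  obtain ⟨Md, hMd⟩ := eventually_atTop.1 hev
  refine ⟨max (max Ma Mb) (max (max Mc Md) 8), fun m0 hm0 => ?_⟩
  have hm0a : Ma ≤ m0 := (le_max_left _ _).trans ((le_max_left _ _).trans hm0)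
  have hm0b : Mb ≤ m0 := (le_max_right _ _).trans ((le_max_left _ _).trans hm0)
  have hm0c : Mc ≤ m0 :=
    (le_max_left _ _).trans ((le_max_left _ _).trans ((le_max_right _ _).trans hm0))
  have hm0d : Md ≤ m0 :=
    (le_max_right _ _).trans ((le_max_left _ _).trans ((le_max_right _ _).trans hm0))
  have hm08 : 8 ≤ m0 := (le_max_right _ _).trans ((le_max_right _ _).trans hm0)
  have ha := hMa m0 hm0a
  have hb := hMb m0 hm0b
  have hcc := hMc m0 hm0c
  obtain ⟨Cr, hCr⟩ : ∃ Cr, Cr = (CL lam p).toReal := ⟨_, rfl⟩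
  have hCr0 : 0 ≤ Cr := by
    rw [hCr]
    exact ENNReal.toReal_nonneg
  have hCL : CL lam p = ENNReal.ofReal Cr := by
    rw [hCr, ENNReal.ofReal_toReal (CL_ne_top hp4)]
  obtain ⟨K', hK'⟩ : ∃ K', K' = B0 * (G2 * ((K + 1) * K) + Cr) := ⟨_, rfl⟩
  have hK'0 : 0 ≤ K' := by
    rw [hK']
    positivity
  obtain ⟨n, hn⟩ := close_num (lam := lam) (K' := 2 * K') hp4 (by positivity) (m0 := m0) (by omega)
  refine ⟨n, fun E hE => ?_⟩
  obtain ⟨η₀, hη₀, HT⟩ := common_eta (P := fun j η => ∃ N : ℕ, ∃ _ : NeZero N,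
      24 * (4 ^ j * m0) < N ∧ TTor μ N c p (E + η * I) (4 ^ j * m0) ≤
        ENNReal.ofReal (1 / (1024 * B0 * G2 * Gg))) n (fun j hj => by
    obtain ⟨N, hN0, _, hN, e0, he0, h⟩ := hE j hj
    have hm1 : 0 < 4 ^ j * m0 := by positivity
    exact ⟨e0, he0, fun η h1 h2 => ⟨N, hN0, by omega, h η h1 h2⟩⟩)
  obtain ⟨mn, hmn⟩ : ∃ mn, mn = 4 ^ n * m0 := ⟨_, rfl⟩
  have hmn1 : m0 ≤ mn := by
    rw [hmn]
    exact Nat.le_mul_of_pos_left _ (by positivity)
  have hmn8 : 8 ≤ mn := hm08.trans hmn1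
  refine ⟨4 * mn + 1, η₀, hη₀, fun η hη hη1 => ?_⟩
  have hζ : (0 : ℝ) < ((E : ℂ) + η * I).im := by simpa using hη
  obtain ⟨ζ, hζd⟩ : ∃ ζ : ℂ, ζ = (E : ℂ) + η * I := ⟨_, rfl⟩
  have HT' := HT η hη hη1
  rw [← hζd] at hζ ⊢
  simp only [← hζd] at HT'
  obtain ⟨R, hR⟩ : ∃ R, R = 4 * mn + 1 := ⟨_, rfl⟩
  rw [← hR]
  have h0X : (0 : Site) ∈ Bl 0 R := by
    rw [mem_Bl, ds_self]
    exact Nat.zero_le _
  obtain ⟨o, ho⟩ : ∃ o : Bl 0 R, o = ⟨0, h0X⟩ := ⟨_, rfl⟩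
  have ho0 : nz (o : Site) = 0 := by
    rw [ho]
    exact nz_zero
  have hmj : ∀ j, m0 ≤ 4 ^ j * m0 := fun j => Nat.le_mul_of_pos_left _ (by positivity)
  have hmjr : ∀ j, (0 : ℝ) < (4 ^ j * m0 : ℕ) := fun j => by
    have : 0 < 4 ^ j * m0 := by have := hmj j; omega
    exact_mod_cast this
  have hcw : ∀ j, c / (4 ^ j * m0 : ℕ) ≤ w := fun j => by
    rw [div_le_iff₀ (hmjr j)]
    exact (hMd _ (hm0d.trans (hmj j))).1
  have hCC : ∀ j, C * (c / (4 ^ j * m0 : ℕ)) ^ 2 < 1 := fun j => by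
    have h1 := (hMd _ (hm0d.trans (hmj j))).2.2
    have h2 := hmjr j
    rw [div_pow, ← mul_div_assoc, div_lt_one (by positivity)]
    exact h1
  have hCR : ∀ j, CRL p C (c / (4 ^ j * m0 : ℕ))
      (P365CUL.sl (Bl 0 R) (2 * (4 ^ j * m0)) (4 * (4 ^ j * m0))).card ≤ B0 := fun j => by
    rw [hB0]
    refine CRL_le hp hp1 hC0 (by have := hmj j; omega) (hMd _ (hm0d.trans (hmj j))).2.1 ?_
    exact card_slN _ _ _ (hm08.trans (hmj j))
  -- the chain
  have hiter := chain_iter (X := Bl 0 R) (ζ := ζ) (o := o) (θ := 1 / (1024 * B0 * G2 * Gg)) hLaw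
    hlam hζ hp hp1 hc hK (fun A hA ζ hζ κ hκ => (HK hLaw A hA ζ hζ κ hκ).2.2) hm08 hB0p ho0
    (n := n) (fun j hj x _ hx => by
      rw [mem_Bl, hR, hmn]
      have h1 : 4 ^ (j + 1) ≤ 4 ^ n := Nat.pow_le_pow_right (by norm_num) hj
      have h2 : 4 ^ (j + 1) * m0 ≤ 4 ^ n * m0 := Nat.mul_le_mul_right _ h1
      have h3 : 4 ^ (j + 1) * m0 = 4 * (4 ^ j * m0) := by ring
      have h4 := ds_le_nz x
      omega)
    hcw hCC hCR HT' (by positivity) (by
      rw [← hG2, ← hGg]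
      refine le_of_eq ?_
      field_simp)
    (fun j => by
      rw [← hG2]
      have h1 := ha j
      have h2 : ((1 : ℝ) / 1024) ^ (j + 1) ≤ 1 / 1024 := by
        have h3 : ((1 : ℝ) / 1024) ^ (j + 1) ≤ (1 / 1024) ^ 1 :=
          pow_le_pow_of_le_one (by norm_num) (by norm_num) (by omega)
        rwa [pow_one] at h3
      refine le_trans (le_of_eq ?_) (h1.trans h2)
      ring)
    hb
  rw [← hmn] at hiter
  have hin0 : Zin μ (Bl 0 R) c p ζ {o} (4 ^ 0 * m0) ≤ ENNReal.ofReal K := by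
    have hm00 : (0 : ℝ) < (4 ^ 0 * m0 : ℕ) := hmjr 0
    refine (HK hLaw _ (cut_symm (AF_symm _) _) ζ hζ _ (prI_nonneg hc)).1 o _ ?_ fun x hx => ?_
    · unfold P365CUL.prI
      rw [if_neg]
      rw [P365CUL.mem_sl, ho0]
      omega
    · unfold P365CUL.prI
      rw [if_pos hx]
      positivity
  have hZin : Zin μ (Bl 0 R) c p ζ {o} mn ≤ ENNReal.ofReal ((1 / 512) ^ n * (K + 1)) := by
    refine hiter.trans ?_
    rw [ENNReal.ofReal_mul (by positivity), ENNReal.ofReal_add hK.le zero_le_one,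
      ENNReal.ofReal_one]
    exact mul_le_mul' le_rfl (add_le_add hin0 le_rfl)
  obtain ⟨B, hB⟩ : ∃ B : Finset (Bl 0 R), B = sub (Bl 0 R) (Sh 0 R) := ⟨_, rfl⟩
  have hBd : ∀ b ∈ B, 4 * mn ≤ nz (b : Site) := by
    intro b hb
    rw [hB, P365L.Comp.mem_sub, mem_Sh] at hb
    have := ds_le_nz (b : Site)
    omega
  have hBc : (B.card : ℝ) ≤ 8 * R + 20 := by
    have h1 : B.card ≤ 8 * R + 4 := by
      rw [hB]
      exact (card_sub_le _ _).trans (card_Sh_le _ _)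
    have h2 : (B.card : ℝ) ≤ 8 * R + 4 := by exact_mod_cast h1
    linarith
  have hmnr : (0 : ℝ) < (mn : ℝ) := by
    have := hmjr n
    rwa [← hmn] at this
  have hZout : Zout μ (Bl 0 R) c p ζ B mn ≤ B.card * ENNReal.ofReal K := by
    refine (HK hLaw _ (cut_symm (AF_symm _) _) ζ hζ _ (prO_nonneg hc)).2.1 B _ (fun b hb => ?_)
      fun x hx => ?_
    · unfold P365CUL.prO
      rw [if_neg]
      have := hBd b hb
      rw [P365CUL.mem_sl]
      omega
    · unfold P365CUL.prO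
      rw [if_pos hx]
      positivity
  have hcwn := hcw n
  have hCCn := hCC n
  have hCRn := hCR n
  rw [← hmn] at hcwn hCCn hCRn
  have hbadn := hcc n
  rw [← hmn] at hbadn
  have hend := chain_end (X := Bl 0 R) (ζ := ζ) (S := {o}) (B := B)
    (D := B.card * (CL lam p * ENNReal.ofReal (bP mn))) hLaw hlam hζ hp hp1 hmn8 hc hcwn hCCn
    (fun x hx => by
      rw [Finset.mem_singleton] at hx
      rw [hx, ho0]
      omega) hBd (fun t => by
      refine (hLaw.est_bad_end hp hp4 hlam (AF_symm _) hζ o B _ t ?_ (fun b hb => ?_)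
        (meas_BdR _ _) (indep_BdR (by omega) (Or.inl ?_)) (fun b hb =>
          indep_BdR (by omega) (Or.inr (hBd b hb)))).trans ?_
      · rw [P365CUL.mem_sl, ho0]
        omega
      · have := hBd b hb
        rw [P365CUL.mem_sl]
        omega
      · rw [ho0]
        omega
      · exact mul_le_mul' le_rfl (mul_le_mul' le_rfl (prob_BdR hLaw hmn8)))
  have htau := hLaw.tau_le hp ζ R h0X
  rw [← hB, ← ho] at htau
  -- numbers
  have hq : (1 / 1024 : ℝ) ^ (n + 1) ≤ (1 / 512) ^ n := by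
    calc (1 / 1024 : ℝ) ^ (n + 1) ≤ (1 / 1024) ^ n :=
          pow_le_pow_of_le_one (by norm_num) (by norm_num) (by omega)
      _ ≤ (1 / 512) ^ n := pow_le_pow_left₀ (by norm_num) (by norm_num) n
  have hbP : bP mn ≤ (1 / 512) ^ n := (bP_le hmn8).trans (hbadn.trans hq)
  obtain ⟨b, hbdef⟩ : ∃ b : ℝ≥0∞, b = ENNReal.ofReal (8 * R + 20) := ⟨_, rfl⟩
  have hBb : (B.card : ℝ≥0∞) ≤ b := by
    rw [hbdef, ← ENNReal.ofReal_natCast]
    exact ENNReal.ofReal_le_ofReal hBc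
  have hfin : tau (scl lam uni) ζ p R ≤
      ENNReal.ofReal (K' * (8 * R + 20) ^ 2 * (1 / 512) ^ n) := by
    calc tau (scl lam uni) ζ p R ≤ B.card * ∫⁻ ω, MP (AF (Bl 0 R)) ζ (0 : Bl 0 R → ℝ) p {o} B ω
          ∂(Measure.pi fun _ : Bl 0 R => μ) := htau
      _ ≤ b * (ENNReal.ofReal B0 * (ENNReal.ofReal G2 *
          (ENNReal.ofReal ((1 / 512) ^ n * (K + 1)) * (b * ENNReal.ofReal K)) +
            b * (ENNReal.ofReal Cr * ENNReal.ofReal ((1 / 512) ^ n)))) := by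
          refine mul_le_mul' hBb (hend.trans ?_)
          rw [← hG2]
          refine mul_le_mul' (ENNReal.ofReal_le_ofReal hCRn) (add_le_add (mul_le_mul' le_rfl
            (mul_le_mul' hZin (hZout.trans (mul_le_mul' hBb le_rfl)))) (mul_le_mul' hBb ?_))
          rw [hCL]
          exact mul_le_mul' le_rfl (ENNReal.ofReal_le_ofReal hbP)
      _ = _ := by
          have hR0 : (0 : ℝ) ≤ 8 * R + 20 := by positivity
          rw [hbdef, hK']
          rw [← ENNReal.ofReal_mul hR0, ← ENNReal.ofReal_mul (by positivity),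
            ← ENNReal.ofReal_mul (by positivity), ← ENNReal.ofReal_mul (by positivity),
            ← ENNReal.ofReal_mul (by positivity), ← ENNReal.ofReal_add (by positivity)
              (by positivity), ← ENNReal.ofReal_mul (by positivity),
            ← ENNReal.ofReal_mul (by positivity)]
          congr 1
          ring
  have hRle : R ≤ 5 * 4 ^ n * m0 := by
    have h1 : 4 ^ n * m0 = mn := hmn.symm
    have h2 : 5 * 4 ^ n * m0 = 5 * mn := by rw [mul_assoc, h1]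
    omega
  have h2 := hn n le_rfl R (by omega) hRle
  rw [mul_assoc 2, mul_assoc 2, ENNReal.ofReal_mul (by norm_num), mul_left_comm,
    ENNReal.ofReal_ofNat, mul_comm, ← ENNReal.le_div_iff_mul_le (by simp) (by simp)] at h2
  refine (mul_le_mul' le_rfl hfin).trans (h2.trans_eq ?_)
  rw [show (4 : ℝ≥0∞) = 2 * 2 by norm_num, one_div, one_div, ENNReal.mul_inv (by simp) (by simp),
    div_eq_mul_inv]

end

open MeasureTheory ProbabilityTheory Complex Filter Topology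
open P365L P365L.Inf P365L.InfB P365CU P365CUL P365CUL.Inst755 P365T1.Conc P365T2.H685
open P365T2.H213 P365T2.H912 P365T2.H963 P365T2.X629 P365T2.H784
open scoped ENNReal

theorem crit_of {Q0 : ∀ (N : ℕ) [NeZero N], StW N → ℝ → (ℝ → ℝ) → ℝ → Prop} (hX : XThm Q0)
    (hK : KBind Q0) (hT : TorSmall) {lam E : ℝ} (hlam : 0 < lam) (hE : |E| < 4 + lam) :
    ∃ R η₀, 0 < η₀ ∧ Crit (scl lam uni) (1 / 8) (P365CU.CL lam (1 / 8)) (1 / 4) E R η₀ := by
  obtain ⟨yf, Vsf, hKT⟩ := exists_kTop hlam hE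
  have := isProb_mu2 (lam := lam) (τ := tau0) hlam tau0_pos tau0_le
  have hL := lawP_mu2' (lam := lam) (τ := tau0) hlam tau0_pos tau0_le (w0 := 1) one_pos
  obtain ⟨θ, hθ, M1, hM⟩ := comp_crit hlam hL (c := 1) (p := 1 / 8) one_pos (by norm_num)
    (by norm_num)
  obtain ⟨K, hK'⟩ := hT lam E yf Vsf hlam hE hKT (dsmall_of hX hK hlam hE hKT) 1 (1 / 8) one_pos
    (by norm_num) (by norm_num) θ hθ
  obtain ⟨n, hn⟩ := hM (2 ^ max K M1) ((Nat.lt_two_pow_self).le.trans' (le_max_right K M1))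
  refine hn E fun j _ => ?_
  have h1 : 4 ^ j * 2 ^ max K M1 = 2 ^ (2 * j + max K M1) := by
    rw [pow_add, pow_mul]
    norm_num
  rw [h1]
  exact hK' _ ((le_max_left K M1).trans (Nat.le_add_left _ _))

/-- **the finite volume criterion holds at every energy** -/
theorem crit_all {lam : ℝ} (hlam : 0 < lam) (E : ℝ) :
    ∃ R η₀, 0 < η₀ ∧ Crit (scl lam uni) (1 / 8) (P365CU.CL lam (1 / 8)) (1 / 4) E R η₀ := by
  rcases lt_or_ge |E| (4 + lam) with hE | hE
  · exact crit_of (xthm_gen (fun lam E C1 h1 h2 h3 => ⟨FErr E C1, fun ε hε => by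
        obtain ⟨η₀, hη₀, h4⟩ := P365T2.X629.err_small h3 hε
        exact ⟨η₀, hη₀, fun N _ W _ h τ hτ => h4 W η₀ hη₀ le_rfl h τ ⟨hτ.1.le, hτ.2.le⟩⟩,
        P365T2.H259.oneX_of h1 (resF h1) (omF h1 h3)⟩)
      (fun lam E C1 h1 _ h3 => P365T2.H869.uPart h1 E C1 h3)
      P365T2.H937.qPartX) P365T2.H704.kbind P365T2.H512.torSmall hlam hE
  · exact crit_edge (CL_ne_top (by norm_num)) (hyp_unif hlam (by norm_num) (by norm_num))
      (by norm_num) (scl_le hlam) (by positivity) (uni_bdd hlam) hE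

end Vale.Agent.N365
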