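import Vale.Agent.N365.Corr

/-!
# N365: dynamical localization and semi-uniformly localized eigenfunctions
-/

set_option linter.deprecated false

namespace Vale.Agent.N365

open MeasureTheory ProbabilityTheory Complex Filter Topology
open P365L P365L.Inf P365L.InfB P365T2.H439 Vale.Agent.P365W P365CU
open scoped ENNReal

theorem len_eq (x : Site) : len x = n1 x := by
  unfold len n1
  rw [← Int.natCast_natAbs, ← Int.natCast_natAbs]
  norm_cast

theorem summable_wt : Summable fun y : Site => ((1 + n1 y : ℝ) ^ 4)⁻¹ := by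
  have h0 : Summable fun n : ℕ => ((1 + n : ℝ) ^ 2)⁻¹ := by
    simpa [add_comm] using (summable_nat_add_iff 1).2 (Real.summable_nat_pow_inv.2 one_lt_two)
  have h1 : Summable fun n : ℤ => ((1 + n.natAbs : ℝ) ^ 2)⁻¹ :=
    Summable.of_nat_of_neg (by simpa using h0) (by simpa using h0)
  refine Summable.of_nonneg_of_le (fun y => by positivity) (fun y => ?_)
    (h1.mul_of_nonneg h1 (fun _ => by positivity) fun _ => by positivity)
  rw [← mul_inv, show 4 = 2 + 2 from rfl, pow_add]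
  unfold n1
  gcongr <;> omega

theorem ae_bound {Ω : Type*} [MeasurableSpace Ω] {P : Measure Ω} {Y : Site → Site → Ω → ℝ≥0∞}
    (hm : ∀ x y, Measurable (Y x y)) {D c : ℝ} (hc : 0 < c) (hD : 0 ≤ D)
    (h : ∀ x y, ∫⁻ o, Y x y o ∂P ≤ ENNReal.ofReal (D * Real.exp (-(2 * c) * n1 (x - y)))) :
    ∀ᵐ o ∂P, ∃ K : ℝ, 0 ≤ K ∧ ∀ x y,
      Y x y o ≤ ENNReal.ofReal (K * (1 + n1 y) ^ 4 * Real.exp (-c * n1 (x - y))) := by
  set a : Site → Site → ℝ := fun x y => ((1 + n1 y : ℝ) ^ 4)⁻¹ * Real.exp (c * n1 (x - y)) with ha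
  have ha0 : ∀ x y, 0 < a x y := fun x y => by positivity
  have h1 : ∀ y, Measurable fun o => ∑' x, ENNReal.ofReal (a x y) * Y x y o := fun y =>
    Measurable.ennreal_tsum fun x => (hm x y).const_mul _
  have h2 : ∫⁻ o, ∑' y, ∑' x, ENNReal.ofReal (a x y) * Y x y o ∂P ≠ ∞ := by
    rw [lintegral_tsum fun y => (h1 y).aemeasurable]
    refine ne_top_of_le_ne_top ((summable_wt.mul_right D).mul_right
      (∑' z, Real.exp (-c * n1 z))).tsum_ofReal_ne_top (ENNReal.tsum_le_tsum fun y => ?_)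
    rw [lintegral_tsum fun x => ((hm x y).const_mul _).aemeasurable,
      ← tsum_exp hc (by positivity) y]
    refine ENNReal.tsum_le_tsum fun x => ?_
    rw [lintegral_const_mul _ (hm x y)]
    refine (mul_le_mul_right (h x y) _).trans_eq ?_
    rw [← ENNReal.ofReal_mul (ha0 x y).le, ha, mul_mul_mul_comm, ← Real.exp_add]
    congr 3
    ring
  filter_upwards [ae_lt_top (Measurable.ennreal_tsum h1) h2] with o ho
  refine ⟨_, ENNReal.toReal_nonneg (a := ∑' y, ∑' x, ENNReal.ofReal (a x y) * Y x y o),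
    fun x y => ?_⟩
  have h3 := (ENNReal.le_tsum (f := fun x => ENNReal.ofReal (a x y) * Y x y o) x).trans
    (ENNReal.le_tsum (f := fun y => ∑' x, ENNReal.ofReal (a x y) * Y x y o) y)
  have h4 : (1 + n1 y : ℝ) ^ 4 * Real.exp (-c * n1 (x - y)) = (a x y)⁻¹ := by
    rw [ha, mul_inv, inv_inv, ← Real.exp_neg, neg_mul]
  rw [mul_assoc, h4, ENNReal.ofReal_mul ENNReal.toReal_nonneg, ENNReal.ofReal_toReal ho.ne,
    ENNReal.ofReal_inv_of_pos (ha0 x y), ← div_eq_mul_inv, ENNReal.le_div_iff_mul_le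
      (.inl (ENNReal.ofReal_pos.2 (ha0 x y)).ne') (.inl ENNReal.ofReal_ne_top), mul_comm]
  exact h3

theorem sule {u : L2} {K c : ℝ} (hK : 0 ≤ K)
    (h : ∀ x y, ‖u x‖ * ‖u y‖ ≤ K * (1 + n1 y) ^ 4 * Real.exp (-(2 * c) * n1 (x - y))) :
    ∃ x₀, ∀ y, ‖u y‖ ≤ √(2 * K) * (1 + n1 x₀) ^ 2 * Real.exp (-c * n1 (y - x₀)) := by
  have hb : BddAbove (Set.range fun y => ‖u y‖) := ⟨‖u‖, by rintro _ ⟨y, rfl⟩; exact coord_le u y⟩
  obtain ⟨x₀, hx⟩ : ∃ x₀, ∀ y, ‖u y‖ ≤ 2 * ‖u x₀‖ := by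
    rcases le_or_gt (⨆ y, ‖u y‖) 0 with h0 | h0
    · exact ⟨0, fun y => ((le_ciSup hb y).trans h0).trans (by positivity)⟩
    · obtain ⟨x₀, hx⟩ := exists_lt_of_lt_ciSup (half_lt_self h0)
      exact ⟨x₀, fun y => (le_ciSup hb y).trans (by linarith)⟩
  refine ⟨x₀, fun y => le_of_sq_le_sq ?_ (by positivity)⟩
  rw [mul_pow, mul_pow, Real.sq_sqrt (by positivity), ← Real.exp_nat_mul, ← pow_mul, show 2 * 2 = 4 from rfl,
    show ((2 : ℕ) : ℝ) * (-c * n1 (y - x₀)) = -(2 * c) * n1 (y - x₀) by push_cast; ring]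
  nlinarith [h y x₀, mul_le_mul_of_nonneg_left (hx y) (norm_nonneg (u y))]

/-- the majorant, for measurable potentials -/
theorem majorant {lam : ℝ} (hl : 0 < lam) (hcrit : ∀ E, ∃ R η₀, 0 < η₀ ∧
    Crit (scl lam uni) (1 / 8) (P365CU.CL lam (1 / 8)) (1 / 4) E R η₀) :
    ∃ (U : Set ℝ) (D c c' : ℝ), IsOpen U ∧ Set.Icc (-4 - lam) (4 + lam) ⊆ U ∧ 0 ≤ D ∧ 0 < c ∧
      ∀ (Ω : Type*) [MeasurableSpace Ω] (P : Measure Ω) (w : Site → Ω → ℝ),
        (∀ x, Measurable (w x)) → iIndepFun w P →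
        (∀ x, P.map (w x) = cond volume (Set.Icc (-1) 1)) → ∀ x y,
        Measurable (YY (fun x o => lam * w x o) U c' x y) ∧
        ∫⁻ o, YY (fun x o => lam * w x o) U c' x y o ∂P ≤
          ENNReal.ofReal (D * Real.exp (-c * n1 (x - y))) := by
  obtain ⟨U, D, c, η₀, h1, h2, h3, h4, h5, h6, h7⟩ := ufm_of_crit (CL_ne_top (by norm_num))
    (hyp_unif hl (by norm_num) (by norm_num)) (by norm_num) (by norm_num) hcrit (4 + lam)
  have hπ := Real.pi_pos
  have hγ : 0 < 1 / (Real.pi * (1 / 2 * |lam⁻¹|)) := by positivity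
  refine ⟨U, 2 * (1 / (1 / (Real.pi * (1 / 2 * |lam⁻¹|))) *
      ((2 * (4 + (lam + (4 + lam + 1) + 1) ^ 2)) ^ ((1 / 8 : ℝ) / 2) * D) * (2 * (4 + lam + 1))) *
      ∑' z, Real.exp (-(c / 4) * n1 z), c / 4, c, h1,
    by rwa [show -4 - lam = -(4 + lam) by ring],
    mul_nonneg (by positivity) (tsum_nonneg fun _ => (Real.exp_pos _).le), by positivity,
    fun Ω _ P w hw hi hwl x y => ?_⟩
  · have := hi.isProbabilityMeasure
    have hm : Measurable fun t : ℝ => lam * t := measurable_id.const_mul lam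
    have hl' : ∀ x, P.map (fun o => lam * w x o) = scl lam uni := fun x => by
      unfold scl
      rw [← P365T2.H213.uni_eq, ← hwl x, Measure.map_map hm (hw x)]
      rfl
    have hs : BSetup P (fun x o => lam * w x o) (1 / (Real.pi * (1 / 2 * |lam⁻¹|))) := by
      refine ⟨fun x => (hw x).const_mul lam, hi.comp (fun _ t => lam * t) fun _ => hm, fun x => ?_⟩
      rw [hl' x, show 1 / (Real.pi * (1 / (Real.pi * (1 / 2 * |lam⁻¹|)))) = 1 / 2 * |lam⁻¹| by
        field_simp]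
      exact scl_le hl
    have hb : ∀ x, ∀ᵐ o ∂P, |lam * w x o| ≤ lam := fun x =>
      ae_of_ae_map ((hw x).const_mul lam).aemeasurable (hl' x ▸ P365T2.H213.uni_bdd hl)
    exact ⟨measurable_YY hs U c x y, YY_mean hs h5 (by positivity)
      (ZZ_mean hγ hs hl' hb (by norm_num) (by norm_num) h4 h6 h7 h1 h3) x y⟩

theorem bounds_of {H : L2 →L[ℂ] L2} {I : Set ℝ} (hH : SimplePurePoint H I)
    {b : HilbertBasis (eigenvalues H) ℂ L2} (hb : ∀ t, IsEigenvector H t.1 (b t)) {x y : Site}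
    {a : ℝ} (ha : 0 ≤ a) (hY : ∀ F : Finset (eigenvalues H),
      ∑ t ∈ F, ENNReal.ofReal (‖b t x‖ * ‖b t y‖) ≤ ENNReal.ofReal a) :
    Bounds H (delta x) (delta y) a := by
  have h1 : ∀ B, Commute B H → ‖B‖ ≤ 1 → ‖inner ℂ (delta x) (B (delta y))‖ ≤ a := fun B h1 h2 => by
    have h3 := entry_le hH hb h1 h2 x y hY
    rwa [← ofReal_norm, ENNReal.ofReal_le_ofReal_iff ha, ← inner_delta] at h3
  exact ⟨h1, fun t => h1 _ (exp_contraction hH.selfAdjoint t).1
    (exp_contraction hH.selfAdjoint t).2⟩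

theorem dynamical {lam : ℝ} (hl : 0 < lam) (hcrit : ∀ E, ∃ R η₀, 0 < η₀ ∧
    Crit (scl lam uni) (1 / 8) (P365CU.CL lam (1 / 8)) (1 / 4) E R η₀) :
    ∃ C c : ℝ, 0 < c ∧ ∀ (Ω : Type*) [MeasurableSpace Ω] (P : Measure Ω) (w : Site → Ω → ℝ),
      iIndepFun w P → (∀ x, pdf.IsUniform (w x) (Set.Icc (-1) 1) P volume) →
      (∀ᵐ o ∂P, ∀ H, IsAnderson lam (fun x => w x o) H →
        SimplePurePoint H (Set.Icc (-4 - lam) (4 + lam))) →
      (∀ x y, ∃ Y : Ω → ℝ, Integrable Y P ∧ ∫ o, Y o ∂P ≤ C * Real.exp (-c * len (x - y)) ∧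
        ∀ᵐ o ∂P, ∀ H, IsAnderson lam (fun x => w x o) H → Bounds H (delta x) (delta y) (Y o)) ∧
      ∀ᵐ o ∂P, ∃ K : ℝ, ∀ H, IsAnderson lam (fun x => w x o) H →
        (∀ x y, Bounds H (delta x) (delta y)
          (K * (1 + len y) ^ 4 * Real.exp (-c * len (x - y)))) ∧
        ∀ z u, IsEigenvector H z u → ∃ x₀, ∀ y,
          ‖u y‖ ≤ K * ‖u‖ * (1 + len x₀) ^ 2 * Real.exp (-c * len (y - x₀)) := by
  obtain ⟨U, D, c, c', hU, hI, hD, hc, H0⟩ := majorant hl hcrit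
  refine ⟨D, c / 4, by positivity, fun Ω _ P w hi hu hS => ?_⟩
  simp only [len_eq]
  have hm : ∀ x, AEMeasurable (w x) P := fun x => (hu x).aemeasurable (by simp) (by simp)
  have H1 := H0 Ω P (fun x => (hm x).mk _) (fun x => (hm x).measurable_mk)
    (hi.congr fun x => (hm x).ae_eq_mk)
    fun x => (Measure.map_congr (hm x).ae_eq_mk).symm.trans (hu x)
  set Y := YY (fun x o => lam * (hm x).mk _ o) U c' with hY
  have H2 : ∀ᵐ o ∂P, ∀ H, IsAnderson lam (fun x => w x o) H →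
      ∃ b : HilbertBasis (eigenvalues H) ℂ L2, (∀ t, IsEigenvector H t.1 (b t)) ∧
        ∀ x y (F : Finset (eigenvalues H)),
          ∑ t ∈ F, ENNReal.ofReal (‖b t x‖ * ‖b t y‖) ≤ Y x y o := by
    filter_upwards [hS, ae_all_iff.2 fun x => (hm x).ae_eq_mk] with o h1 h2 H hH
    obtain ⟨b, hb⟩ := (h1 H hH).basis
    exact ⟨b, hb, basis_corr (w := fun x => (hm x).mk _) (by simpa only [← h2] using hH) (h1 H hH)
      hU hI hb c'⟩
  have hn : ∀ x : Site, (0 : ℝ) ≤ n1 x := fun x => Nat.cast_nonneg _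
  refine ⟨fun x y => ?_, ?_⟩
  · have h1 := ne_top_of_le_ne_top ENNReal.ofReal_ne_top (H1 x y).2
    refine ⟨fun o => (Y x y o).toReal, integrable_toReal_of_lintegral_ne_top
      (H1 x y).1.aemeasurable h1, ?_, ?_⟩
    · rw [integral_toReal (H1 x y).1.aemeasurable (ae_lt_top (H1 x y).1 h1)]
      refine (ENNReal.toReal_le_of_le_ofReal (by positivity) (H1 x y).2).trans ?_
      exact mul_le_mul_of_nonneg_left (Real.exp_le_exp.2 (by nlinarith [hn (x - y)])) hD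
    · filter_upwards [hS, H2, ae_lt_top (H1 x y).1 h1] with o h2 h3 h4 H hH
      obtain ⟨b, hb, h5⟩ := h3 H hH
      exact bounds_of (h2 H hH) hb ENNReal.toReal_nonneg fun F =>
        (h5 x y F).trans_eq (ENNReal.ofReal_toReal h4.ne).symm
  · filter_upwards [hS, H2, ae_bound (fun x y => (H1 x y).1) (c := 2 * (c / 4)) (by positivity) hD
      fun x y => by rw [show 2 * (2 * (c / 4)) = c by ring]; exact (H1 x y).2] with o h2 h3 h4
    obtain ⟨K, hK, h4⟩ := h4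
    refine ⟨K + √(2 * K), fun H hH => ?_⟩
    obtain ⟨b, hb, h5⟩ := h3 H hH
    refine ⟨fun x y => bounds_of (h2 H hH) hb (by positivity) fun F =>
      ((h5 x y F).trans (h4 x y)).trans (ENNReal.ofReal_le_ofReal ?_), fun z u hu => ?_⟩
    · refine mul_le_mul (by gcongr; exact le_add_of_nonneg_right (by positivity))
        (Real.exp_le_exp.2 (by nlinarith [hn (x - y)])) (by positivity) (by positivity)
    · rw [hu.real (h2 H hH).selfAdjoint] at hu
      obtain ⟨a, ha⟩ := (h2 H hH).simple _ _ _ (hb ⟨_, u, hu⟩) hu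
      obtain ⟨x₀, hx⟩ := sule (u := b ⟨_, u, hu⟩) (c := c / 4) hK fun x y => by
        have h6 := (h5 x y {⟨_, u, hu⟩}).trans (h4 x y)
        rwa [Finset.sum_singleton, ENNReal.ofReal_le_ofReal_iff (by positivity)] at h6
      refine ⟨x₀, fun y => ?_⟩
      have h7 : ‖u‖ = ‖a‖ := by
        conv_lhs => rw [ha]
        rw [norm_smul, b.orthonormal.1, mul_one]
      have h8 : ‖u y‖ = ‖a‖ * ‖b ⟨_, u, hu⟩ y‖ := by
        conv_lhs => rw [ha]
        exact norm_mul _ _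
      rw [h7, h8, mul_comm _ ‖a‖, mul_assoc, mul_assoc, ← mul_assoc (K + _)]
      refine mul_le_mul_of_nonneg_left ((hx y).trans ?_) (norm_nonneg _)
      gcongr
      exact le_add_of_nonneg_left hK

end Vale.Agent.N365
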