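import Vale.Agent.P365W82.Main
import Vale.Agent.N365.In
import Vale.Agent.N365.Top

/-!
# N365: transfer from `ℓ²(ℤ²)` to a Hilbert space with a basis indexed by `ℤ²`
-/

namespace Vale.Agent.N365

open MeasureTheory ProbabilityTheory P365L Vale.Agent.P365W

variable {E : Type} [NormedAddCommGroup E] [InnerProductSpace ℂ E] [CompleteSpace E]
  (δ : HilbertBasis (ℤ × ℤ) ℂ E)

theorem anderson_iff (lam : ℝ) (w : ℤ × ℤ → ℝ) (H : E →L[ℂ] E) :
    Anderson δ lam w H ↔ IsAnderson lam w (δ.repr.conjStarAlgEquiv H) := by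
  constructor
  · intro h ψ x
    obtain ⟨φ, rfl⟩ := δ.repr.surjective ψ
    simpa [δ.repr_apply_apply] using h.eq φ x
  · exact fun h => ⟨fun ψ x => by simpa [δ.repr_apply_apply] using h (δ.repr ψ) x⟩

theorem eigen_map {H : E →L[ℂ] E} {u : E} :
    Eigenvector H u ↔ ∃ z, IsEigenvector (δ.repr.conjStarAlgEquiv H) z (δ.repr u) := by
  constructor
  · rintro ⟨h1, z, h2⟩
    exact ⟨z, by simpa using h1, by simp [h2]⟩
  · rintro ⟨z, h1, h2⟩
    refine ⟨by simpa using h1, z, δ.repr.injective ?_⟩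
    simpa using h2

theorem purePoint_of {H : E →L[ℂ] E} (h : PurePoint (δ.repr.conjStarAlgEquiv H)) :
    PurePointSpectrum H := by
  refine ⟨(δ.repr.symm.surjective.denseRange.dense_image δ.repr.symm.continuous h).mono ?_⟩
  rintro _ ⟨v, hv, rfl⟩
  have h1 : Submodule.span ℂ {u | ∃ z, IsEigenvector (δ.repr.conjStarAlgEquiv H) z u} ≤
      (Submodule.span ℂ {u | Eigenvector H u}).comap δ.repr.symm.toLinearEquiv.toLinearMap :=
    Submodule.span_le.2 fun u hu => Submodule.subset_span ((eigen_map δ).2 (by simpa using hu))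
  exact h1 hv

theorem bounds_map {H : E →L[ℂ] E} (hH : IsSelfAdjoint (δ.repr.conjStarAlgEquiv H)) {x y : ℤ × ℤ}
    {a : ℝ} (h : Bounds (δ.repr.conjStarAlgEquiv H) (delta x) (delta y) a) :
    Bounds H (δ x) (δ y) a := by
  have h0 : IsSelfAdjoint H := by
    have := hH.map δ.repr.conjStarAlgEquiv.symm
    rwa [StarAlgEquiv.symm_apply_apply] at this
  have h1 : ∀ B : E →L[ℂ] E, Commute B H → ‖B‖ ≤ 1 → ‖inner ℂ (δ x) (B (δ y))‖ ≤ a := by
    intro B h1 h2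
    have h3 := h.commutant (δ.repr.conjStarAlgEquiv B) (h1.map _) (by
      refine ContinuousLinearMap.opNorm_le_bound _ zero_le_one fun v => ?_
      simpa using (B.le_opNorm (δ.repr.symm v)).trans
        (mul_le_mul_of_nonneg_right h2 (norm_nonneg _)))
    rw [delta, delta, ← δ.repr_self, ← δ.repr_self] at h3
    simpa using h3
  exact ⟨h1, fun t => h1 _ (exp_contraction h0 t).1 (exp_contraction h0 t).2⟩

theorem final {lam : ℝ} (hl : 0 < lam) : ∃ C c : ℝ, 0 < c ∧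
    ∀ (E : Type) [NormedAddCommGroup E] [InnerProductSpace ℂ E] [CompleteSpace E]
      (δ : HilbertBasis (ℤ × ℤ) ℂ E)
      (Ω : Type*) [MeasurableSpace Ω] (P : Measure Ω) (w : ℤ × ℤ → Ω → ℝ),
      iIndepFun w P → (∀ x, pdf.IsUniform (w x) (Set.Icc (-1) 1) P volume) →
      (∀ᵐ o ∂P, (∃! H, Anderson δ lam (fun x => w x o) H) ∧
        ∀ H, Anderson δ lam (fun x => w x o) H → PurePointSpectrum H) ∧
      (∀ x y, ∃ Y : Ω → ℝ, Integrable Y P ∧ ∫ o, Y o ∂P ≤ C * Real.exp (-c * len (x - y)) ∧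
        ∀ᵐ o ∂P, ∀ H, Anderson δ lam (fun x => w x o) H → Bounds H (δ x) (δ y) (Y o)) ∧
      ∀ᵐ o ∂P, ∃ K : ℝ, ∀ H, Anderson δ lam (fun x => w x o) H →
        (∀ x y, Bounds H (δ x) (δ y) (K * (1 + len y) ^ 4 * Real.exp (-c * len (x - y)))) ∧
        ∀ u, Eigenvector H u → ∃ x₀, ∀ y, ‖inner ℂ (δ y) u‖ ≤
          K * ‖u‖ * (1 + len x₀) ^ 2 * Real.exp (-c * len (y - x₀)) := by
  obtain ⟨C, c, hc, h⟩ := dynamical hl (crit_all hl)
  refine ⟨C, c, hc, fun E _ _ _ δ Ω _ P w hi hu => ?_⟩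
  have hm := main hl P w hi hu
  obtain ⟨h2, h3⟩ := h Ω P w hi hu (hm.mono fun _ k H hH => (k.2 H hH).1)
  refine ⟨hm.mono fun o k => ⟨?_, fun H hH => ?_⟩, fun x y => ?_, ?_⟩
  · obtain ⟨H, hH, hH'⟩ := k.1
    refine ⟨δ.repr.conjStarAlgEquiv.symm H, (anderson_iff δ _ _ _).2 (by
      rwa [StarAlgEquiv.apply_symm_apply]), fun G hG => ?_⟩
    rw [← hH' _ ((anderson_iff δ _ _ _).1 hG), StarAlgEquiv.symm_apply_apply]
  · exact purePoint_of δ (k.2 _ ((anderson_iff δ _ _ _).1 hH)).1.purePoint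
  · obtain ⟨Y, a1, a2, a3⟩ := h2 x y
    refine ⟨Y, a1, a2, ?_⟩
    filter_upwards [hm, a3] with o k k' H hH
    have h4 := (anderson_iff δ _ _ _).1 hH
    exact bounds_map δ (k.2 _ h4).1.selfAdjoint (k' _ h4)
  · filter_upwards [hm, h3] with o k ⟨K, k'⟩
    refine ⟨K, fun H hH => ?_⟩
    have h4 := (anderson_iff δ _ _ _).1 hH
    refine ⟨fun x y => bounds_map δ (k.2 _ h4).1.selfAdjoint ((k' _ h4).1 x y), fun u hu' => ?_⟩
    obtain ⟨z, hz⟩ := (eigen_map δ).1 hu'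
    obtain ⟨x₀, h5⟩ := (k' _ h4).2 z _ hz
    exact ⟨x₀, fun y => by simpa [δ.repr_apply_apply] using h5 y⟩

end Vale.Agent.N365
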