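import Vale.Agent.P365.T2.H439.ExpLoc
import Vale.Agent.N365.Cont

/-!
# N365: uniform decay of the mean absorption and of the eigenprojections
-/

namespace Vale.Agent.N365

open MeasureTheory ProbabilityTheory Complex Filter Topology
open P365L P365L.Inf P365L.InfB P365T2.H439 P365L.Comp P365X
open scoped ENNReal

/-- fractional moment decay, uniform in the energies of `U` -/
def UFM (ν : Measure ℝ) (s D c η₀ : ℝ) (U : Set ℝ) : Prop :=
  ∀ E ∈ U, ∀ η : ℝ, 0 < η → η ≤ η₀ → ∀ y : Site, ∀ᶠ M in atTop, ∀ hy : y ∈ Lam M,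
    ∫⁻ v, ENNReal.ofReal (‖GR (AL M) v (E + η * I) ⟨y, hy⟩ (oL M)‖ ^ s)
      ∂(Measure.pi fun _ : Lam M => ν) ≤ ENNReal.ofReal (D * Real.exp (-c * n1 y))

theorem ufm_of_crit {ν : Measure ℝ} [IsProbabilityMeasure ν] {s : ℝ} {C : ℝ≥0∞} (hC : C ≠ ∞)
    (H : Hyp ν s C) (hs : 0 < s) (hs1 : s ≤ 1)
    (h : ∀ E, ∃ r η₀, 0 < η₀ ∧ Crit ν s C (1 / 4) E r η₀) (b : ℝ) :
    ∃ (U : Set ℝ) (D c η₀ : ℝ), IsOpen U ∧ Set.Icc (-b) b ⊆ U ∧ U ⊆ Set.Ioo (-(b + 1)) (b + 1) ∧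
      0 ≤ D ∧ 0 < c ∧ 0 < η₀ ∧ UFM ν s D c η₀ U := by
  obtain ⟨U, h1, h2, R, η₀, h3, h4⟩ := crit_unif hC H hs hs1 (isCompact_Icc (a := -b) (b := b))
    fun E _ => h E
  refine ⟨U ∩ Set.Ioo (-(b + 1)) (b + 1), 2 * C.toReal, Real.log 2 / (2 * (R + 2)), η₀,
    h1.inter isOpen_Ioo, Set.subset_inter h2 (Set.Icc_subset_Ioo (by linarith) (by linarith)),
    Set.inter_subset_right, by positivity, by positivity, h3, fun E hE η h5 h6 y => ?_⟩
  obtain ⟨r, h7, h8⟩ := h4 E hE.1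
  filter_upwards [eventually_ge_atTop (2 * ds 0 y)] with M hM hy
  have h9 := crit hC H (hz_im E h5) hs hs1 (h8 η h5 h6) y M hM
  rw [ER_Lam _ M hy] at h9
  refine h9.trans (ENNReal.ofReal_le_ofReal ?_)
  have h10 : (r : ℝ) ≤ R := by exact_mod_cast h7
  unfold n1
  gcongr

variable {Ω : Type*} [MeasurableSpace Ω] {P : Measure Ω} [IsProbabilityMeasure P]
  {γ : ℝ} {V : Site → Ω → ℝ} {ν : Measure ℝ}

theorem moment_eq [IsProbabilityMeasure ν] (hs : BSetup P V γ) (hl : ∀ x, P.map (V x) = ν)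
    (x : Site) (z : ℂ) (s : ℝ) {M : ℕ} {y : Site} (hy : y ∈ Lam M) :
    ∫⁻ ω, ENNReal.ofReal (‖GVs M (shift x (pot V ω)) z y‖ ^ s) ∂P =
      ∫⁻ v, ENNReal.ofReal (‖GR (AL M) v z ⟨y, hy⟩ (oL M)‖ ^ s)
        ∂(Measure.pi fun _ : Lam M => ν) := by
  have hV'm : Measurable fun ω (y : Lam M) => V (x + y) ω := measurable_pi_lambda _ fun y => hs.hV _
  have hi' : iIndepFun (fun y : Lam M => V (x + y)) P :=
    hs.hi.precomp fun a b hab => Subtype.ext (add_left_cancel hab)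
  have h1 := (iIndepFun_iff_map_fun_eq_pi_map
    (fun y : Lam M => (hs.hV (x + y)).aemeasurable)).mp hi'
  simp only [hl] at h1
  rw [← h1, lintegral_map
    ((measurable_GR (AL M) z ⟨y, hy⟩ (oL M)).norm.pow_const s).ennreal_ofReal hV'm]
  refine lintegral_congr fun ω => ?_
  rw [show GVs M (shift x (pot V ω)) z y = _ from GVs_coe M _ _ ⟨y, hy⟩]
  rfl

theorem JJ_unif [IsProbabilityMeasure ν] (hγ : 0 < γ) (hs : BSetup P V γ)
    (hl : ∀ x, P.map (V x) = ν) {b B s D c η₀ : ℝ} (hb : ∀ x, ∀ᵐ ω ∂P, |V x ω| ≤ b) (hs0 : 0 < s)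
    (hs1 : s ≤ 1) {U : Set ℝ} (hU : UFM ν s D c η₀ U) {E η : ℝ} (hE : E ∈ U) (hB : |E| ≤ B)
    (hη : 0 < η) (hη0 : η ≤ η₀) (hη1 : η ≤ 1) (x y : Site) :
    JJ P V x y η E ≤ ENNReal.ofReal
      (1 / γ * ((2 * (4 + (b + B + 1) ^ 2)) ^ (s / 2) * D) * Real.exp (-c * n1 y)) := by
  have hzim : ((E : ℂ) + η * I).im = η := by simp
  have hP0 : P {ω | b + B + 1 < ‖((pot V ω x : ℝ) : ℂ) - (E + η * I)‖} = 0 := by
    refine measure_eq_zero_iff_ae_notMem.2 ?_
    filter_upwards [hb x] with ω hω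
    have h1 : ‖((pot V ω x : ℝ) : ℂ) - (E + η * I)‖ ≤ |V x ω| + (|E| + η) := by
      refine (norm_sub_le _ _).trans (add_le_add (by simp [InfB.pot]) ((norm_add_le _ _).trans ?_))
      simp [abs_of_pos hη]
    exact not_lt.2 (by linarith)
  have h1 := inf_bound hγ hs x (hz_im E hη) {y} (K := b + B + 1) hs0 hs1
    (fun y => ENNReal.ofReal (D * Real.exp (-c * n1 y))) (fun y _ => by
      filter_upwards [hU E hE η hη hη0 y, eventually_ge_atTop (y.1.natAbs + y.2.natAbs)]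
        with M h2 h3
      rw [moment_eq hs hl x _ s ((mem_Lam M y).2 h3)]
      exact h2 _)
  simp only [Finset.sum_singleton] at h1
  rw [hzim, hP0, zero_add] at h1
  refine (show JJ P V x y η E ≤ _ from h1).trans (le_of_eq ?_)
  rw [← ENNReal.ofReal_mul (by positivity), ← ENNReal.ofReal_mul (by positivity)]
  congr 1
  ring

/-- the scales -/
noncomputable def eta (k : ℕ) : ℝ := 1 / ((k : ℝ) + 1)

theorem eta_pos (k : ℕ) : 0 < eta k := Nat.one_div_pos_of_nat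

theorem eta_zero : Tendsto eta atTop (𝓝 0) := tendsto_one_div_add_atTop_nhds_zero_nat

/-- the total absorption in the energy set `U` -/
noncomputable def ZZ (V : Site → Ω → ℝ) (U : Set ℝ) (x y : Site) (ω : Ω) : ℝ≥0∞ :=
  liminf (fun k => ∫⁻ E in U, XX V x y (eta k) (ω, E)) atTop

theorem ZZ_mean [IsProbabilityMeasure ν] (hγ : 0 < γ) (hs : BSetup P V γ)
    (hl : ∀ x, P.map (V x) = ν) {b B s D c η₀ : ℝ} (hb : ∀ x, ∀ᵐ ω ∂P, |V x ω| ≤ b) (hs0 : 0 < s)
    (hs1 : s ≤ 1) (hD : 0 ≤ D) (hη₀ : 0 < η₀) {U : Set ℝ} (hU : UFM ν s D c η₀ U) (hUo : IsOpen U)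
    (hUB : U ⊆ Set.Ioo (-B) B) (x y : Site) : ∫⁻ ω, ZZ V U x y ω ∂P ≤ ENNReal.ofReal
      (1 / γ * ((2 * (4 + (b + B + 1) ^ 2)) ^ (s / 2) * D) * (2 * B) * Real.exp (-c * n1 y)) := by
  have hv : volume U ≤ ENNReal.ofReal (2 * B) := (measure_mono hUB).trans_eq (by
    rw [Real.volume_Ioo]
    congr 1
    ring)
  refine (fatou_le hγ hs eta_pos x y (ne_top_of_le_ne_top ENNReal.ofReal_ne_top hv)).trans ?_
  refine (setLIntegral_mono' hUo.measurableSet (g := fun _ => ENNReal.ofReal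
    (1 / γ * ((2 * (4 + (b + B + 1) ^ 2)) ^ (s / 2) * D) * Real.exp (-c * n1 y)))
    fun E hE => ?_).trans ?_
  · refine limsup_le_of_le (by isBoundedDefault) ?_
    filter_upwards [eta_zero.eventually (ge_mem_nhds hη₀), eta_zero.eventually
      (ge_mem_nhds one_pos)] with k h1 h2
    exact JJ_unif hγ hs hl hb hs0 hs1 hU hE (abs_lt.2 (hUB hE)).le (eta_pos k) h1 h2 x y
  · rw [setLIntegral_const, mul_right_comm _ (2 * B), ENNReal.ofReal_mul (q := 2 * B)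
      (by positivity)]
    gcongr

theorem sum_liminf_le {ι : Type*} (F : Finset ι) (u : ι → ℕ → ℝ≥0∞) :
    ∑ i ∈ F, liminf (u i) atTop ≤ liminf (fun k => ∑ i ∈ F, u i k) atTop := by
  classical
  induction F using Finset.induction_on with
  | empty => simp
  | insert a F ha ih =>
    simp only [Finset.sum_insert ha]
    refine (add_le_add le_rfl ih).trans ?_
    rw [liminf_eq_iSup_iInf_of_nat, liminf_eq_iSup_iInf_of_nat]
    refine ENNReal.iSup_add_iSup_le fun i j => le_liminf_of_le (by isBoundedDefault) ?_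
    filter_upwards [eventually_ge_atTop i, eventually_ge_atTop j] with k h1 h2
    exact add_le_add (iInf₂_le k h1) (iInf₂_le k h2)

/-- the eigenprojections of finitely many energies are controlled together -/
theorem sum_atom_le (V : Site → ℝ) (x y : Site) {U : Set ℝ} (hU : IsOpen U) (F : Finset ℝ)
    (hF : ∀ E ∈ F, E ∈ U) :
    ∑ E ∈ F, ENNReal.ofReal (‖((NE V E).starProjection (dl x)) y‖ ^ 2 / 2) ≤
      liminf (fun k => ∫⁻ E in U, ENNReal.ofReal
        (eta k * ‖(Res V (E + eta k * I) (dl x)) y‖ ^ 2)) atTop := by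
  obtain ⟨W, h1, h2⟩ := F.finite_toSet.t2_separation
  refine (Finset.sum_le_sum fun E hE => atom_le V x y ((h1 E).2.inter hU) ⟨(h1 E).1, hF E hE⟩
    eta eta_pos eta_zero).trans ((sum_liminf_le _ _).trans
      (liminf_le_liminf (.of_forall fun k => ?_)))
  rw [← lintegral_biUnion_finset (h2.mono fun E => Set.inter_subset_left)
    fun E _ => ((h1 E).2.inter hU).measurableSet]
  exact lintegral_mono_set (Set.iUnion₂_subset fun _ _ => Set.inter_subset_right)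

end Vale.Agent.N365
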