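import Vale.Agent.N365.Gen

/-!
# P365, Q2: pure point spectrum and exponential dynamical localization in two dimensions
-/

open MeasureTheory ProbabilityTheory Vale.Agent.N365

/-- `δ` is an isometric isomorphism of `E` with `ℓ²(ℤ²)`, and `δ x` is the unit vector at `x`. -/
theorem Vale.Agent.N365.oldDynamical (E : Type) [NormedAddCommGroup E]
    [InnerProductSpace ℂ E] [CompleteSpace E] (δ : HilbertBasis (ℤ × ℤ) ℂ E) :
    (∃ (Ω : Type) (_ : MeasurableSpace Ω) (P : Measure Ω) (w : ℤ × ℤ → Ω → ℝ),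
      iIndepFun w P ∧ ∀ x, pdf.IsUniform (w x) (Set.Icc (-1) 1) P volume) ∧
    ∀ lam : ℝ, 0 < lam → ∃ C c : ℝ, 0 < c ∧
      ∀ (Ω : Type*) [MeasurableSpace Ω] (P : Measure Ω) (w : ℤ × ℤ → Ω → ℝ),
      iIndepFun w P → (∀ x, pdf.IsUniform (w x) (Set.Icc (-1) 1) P volume) →
      -- (1) Q2: pure point spectrum
      (∀ᵐ o ∂P, (∃! H, Anderson δ lam (fun x => w x o) H) ∧
        ∀ H, Anderson δ lam (fun x => w x o) H → PurePointSpectrum H) ∧
      -- (2) dynamical localization in expectation, on the whole spectrum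
      (∀ x y, ∃ Y : Ω → ℝ, Integrable Y P ∧ ∫ o, Y o ∂P ≤ C * Real.exp (-c * len (x - y)) ∧
        ∀ᵐ o ∂P, ∀ H, Anderson δ lam (fun x => w x o) H → Bounds H (δ x) (δ y) (Y o)) ∧
      -- (3) semi-uniform localization of the dynamics and of the eigenvectors
      ∀ᵐ o ∂P, ∃ K : ℝ, ∀ H, Anderson δ lam (fun x => w x o) H →
        (∀ x y, Bounds H (δ x) (δ y) (K * (1 + len y) ^ 4 * Real.exp (-c * len (x - y)))) ∧
        ∀ u, Eigenvector H u → ∃ x₀, ∀ y, ‖inner ℂ (δ y) u‖ ≤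
          K * ‖u‖ * (1 + len x₀) ^ 2 * Real.exp (-c * len (y - x₀)) :=
  ⟨Vale.Agent.P365W.exists_model, fun _ hl =>
    (final hl).imp fun _ h => h.imp fun _ h => ⟨h.1, h.2 E δ⟩⟩
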